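import Vale.Agent.P273.H379.NodeD
import Vale.Agent.P273.H857.All
import Vale.Agent.P273.H598.Node2

/-! P273 / H379, row E-REG: non-degeneracy of the half periods at a configuration with one node. -/

namespace Vale.Agent.P273.H379

open Complex Set Filter Topology H857 H595
open scoped ContDiff Real

noncomputable section

/-- real combinations of the two primitives and a constant -/
def FB (q : C6) (a0 a1 : ℂ) (r : ℝ) (B : Finset (Fin 6)) (x : ℂ) : ℂ :=
  a0 * P 0 B q x + a1 * P 1 B q x + r

theorem n6_FB {q : C6} {e a0 a1 : ℂ} {r : ℝ} (h0 : a0 + a1 * e = 0) :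
    N6 q e a1 (FB q a0 a1 r) where
  deriv B x hB hx := by
    have h1 := (stmHOLn 0 B q x (by norm_num) hx hB).2
    have h2 := (stmHOLn 1 B q x le_rfl hx hB).2
    have h3 := ((h1.const_mul a0).add (h2.const_mul a1)).add_const (r : ℂ)
    refine h3.congr_deriv ?_
    have : a0 = -(a1 * e) := by linear_combination h0
    rw [this, pow_zero, pow_one]
    ring
  flipR B x m hs hm h h' hx := by
    unfold FB
    rw [stmFLIPRn 0 B q x m (by norm_num) hs hm h h' hx, stmFLIPRn 1 B q x m le_rfl hs hm h h' hx]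
  flipL B x m hs hm h h' hx := by
    unfold FB
    have h1 := stmFLIPLn 0 B q x m (by norm_num) hs hm h h' hx
    have h2 := stmFLIPLn 1 B q x m le_rfl hs hm h h' hx
    linear_combination a0 * h1 + a1 * h2
  root B j hB hj hs := by
    have e1 : side (q j) = {x | x - q j ∈ Sl} := by
      ext x
      simp only [side, Sl, mem_ofPred_eq, sub_re, sub_im, sub_pos, sub_ne_zero]
      tauto
    rw [e1]
    have h1 := tendsto_root stmROOTn (k := 0) (by norm_num) hj hs hB
    have h2 := tendsto_root stmROOTn (k := 1) le_rfl hj hs hB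
    exact ((h1.const_mul a0).add (h2.const_mul a1)).add_const (r : ℂ)
  path B x hB := stmEX B q x hB

variable {k : Fin 5} {q : C6}

theorem pair_of_XD (hq : q ∈ H828.XD k) : Pair q k.castSucc k.succ (q k.castSucc) where
  ne := Fin.castSucc_lt_succ.ne
  eq := rfl
  eq' := hq.1.symm
  inj l m h := by
    have h' : q l = q m := h
    rcases lt_trichotomy (l : Fin 6) m with h1 | h1 | h1
    · have := hq.2 l m h1 (Or.inl l.2.1) (by rw [h'])
      rw [h'] at this
      exact absurd this (lt_irrefl _)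
    · exact Subtype.ext h1
    · have := hq.2 m l h1 (Or.inl m.2.1) (by rw [h'])
      rw [h'] at this
      exact absurd this (lt_irrefl _)
  off l h := by
    have h' : q l = q k.castSucc := h
    rcases lt_trichotomy (l : Fin 6) k.castSucc with h1 | h1 | h1
    · have := hq.2 l _ h1 (Or.inl l.2.1) (by rw [h'])
      rw [h'] at this
      exact absurd this (lt_irrefl _)
    · exact l.2.1 h1
    · have := hq.2 _ l h1 (Or.inr l.2.2) (by rw [h'])
      rw [h'] at this
      exact absurd this (lt_irrefl _)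

/-- the labels before `j` -/
def A0 (k : Fin 5) (j : Io k.castSucc k.succ) : Finset (Io k.castSucc k.succ) :=
  Finset.univ.filter fun l => (l : Fin 6) < j

theorem ty_A0 (j : Io k.castSucc k.succ) :
    ty (decide (k.castSucc < (j : Fin 6))) (A0 k j) = lo j := by
  ext l
  rcases lab (i := k.castSucc) (i' := k.succ) l with rfl | rfl | ⟨l', rfl⟩
  · rw [i_mem_ty, H598.mem_lo, decide_eq_true_iff]
  · rw [i'_mem_ty, H598.mem_lo, decide_eq_true_iff]
    constructor
    · intro h
      exact lt_of_le_of_ne (Fin.castSucc_lt_iff_succ_le.1 h) (Ne.symm j.2.2)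
    · exact fun h => Fin.castSucc_lt_succ.trans h
  · rw [val_mem_ty, H598.mem_lo]
    simp [A0]

theorem rdom_of_ok4 {i i' : Fin 6} {A : Finset (Io i i')} {j : Io i i'}
    (h : OK4 q A (b4 q j)) (hj : j ∉ A) (hinj : Function.Injective (b4 q : Io i i' → ℂ)) :
    RDom A (b4 q) j :=
  ⟨hj, fun l hl h1 => h.2 l (fun h2 => hl (hinj h2)) h1, fun l hl m hm h1 h2 =>
    h.1 l hl m hm h2 h1⟩

/-- **E-REG: non-degeneracy at one node.** -/
theorem node_nondeg (hq : q ∈ H828.XD k) {a0 a1 : ℂ} {r : ℝ} (h0 : a0 + a1 * q k.castSucc = 0)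
    (hj : ∀ j, j ≠ k.castSucc → j ≠ k.succ →
      (a0 * piX 0 j q + a1 * piX 1 j q).re + r = 0) : a0 = 0 ∧ a1 = 0 ∧ r = 0 := by
  have hp := pair_of_XD hq
  have hok : ∀ j : Io k.castSucc k.succ,
      OK4 q (A0 k j) (b4 q j) ∧ CC q (q k.castSucc) (decide (k.castSucc < (j : Fin 6))) (A0 k j)
        (b4 q j) := by
    intro j
    have h1 := (H598.mem_OmX_of_XD hq j.2.1 j.2.2).1
    rw [← ty_A0 j] at h1
    exact (ok_ty hp.eq hp.eq').1 h1
  have h1 : a1 = 0 := by
    refine (n6_FB (r := r) h0).nondeg hp (A₀ := A0 k) (fun j => rdom_of_ok4 (hok j).1 ?_ hp.inj)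
      (c := fun j => decide (k.castSucc < (j : Fin 6))) (fun j => (hok j).2) fun j => ?_
    · simp [A0]
    · rw [ty_A0 j]
      have := hj j j.2.1 j.2.2
      unfold FB
      rw [add_re, ofReal_re]
      exact this
  have h2 : a0 = 0 := by rw [h1, zero_mul, add_zero] at h0; exact h0
  refine ⟨h2, h1, ?_⟩
  obtain ⟨j⟩ : Nonempty (Io k.castSucc k.succ) := by
    rw [← Fintype.card_pos_iff, card_Io hp.ne]; norm_num
  have := hj j j.2.1 j.2.2
  rw [h1, h2] at this
  simpa using this

end

end Vale.Agent.P273.H379
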