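import Vale.Agent.P273.H379.NodeE

/-! P273 / H379, row E-REG: the same statement with the constant term of the neck. -/

namespace Vale.Agent.P273.H379

open Complex Set Filter Topology H857 H598
open scoped Real

noncomputable section

variable {i : Fin 5} {V : Set C6} {ρ : ℝ} {q : C6}

/-- the value of the constant term at the node -/
theorem c0_node (h : NB i V ρ) (hq : q ∈ V) (k : ℕ) :
    c0 (fun z => HH i k (q, z)) (5 * ρ) 0 = (q i.castSucc) ^ k / GG i q 0 := by
  have hρ := h.pos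
  rw [c0_zero (by positivity) (h.dcc k hq)]
  unfold HH
  simp

/-- **the limit system at the node is injective** -/
theorem inj_node (hq : q ∈ H828.XD i) (h : NB i V ρ) (hqV : q ∈ V) (v : ℂ × ℂ × ℝ)
    (h1 : v.1 * c0 (fun z => HH i 0 (q, z)) (5 * ρ) 0 +
      v.2.1 * c0 (fun z => HH i 1 (q, z)) (5 * ρ) 0 = 0)
    (hj : ∀ j, j ≠ i.castSucc → j ≠ i.succ →
      (v.1 * piX 0 j (bb i (0, q)) + v.2.1 * piX 1 j (bb i (0, q))).re + v.2.2 = 0) : v = 0 := by
  rw [c0_node h hqV, c0_node h hqV, pow_zero, pow_one] at h1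
  have hG : GG i q 0 ≠ 0 := GG_ne_zero (p := (q, 0)) (mem_Gd_of_XD hq)
  have h2 : v.1 + v.2.1 * q i.castSucc = 0 := by
    field_simp at h1
    rw [h1, mul_zero]
  rw [bb_d_zero hq.1] at hj
  obtain ⟨k0, k1, k2⟩ := node_nondeg hq h2 hj
  exact Prod.ext k0 (Prod.ext k1 k2)

end

end Vale.Agent.P273.H379
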