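import Vale.Agent.P273.H379.BaseA0
import Vale.Agent.P273.H379.NodeF
import Vale.Agent.P273.H225.NkDef
import Vale.Agent.P273.H580.The
import Vale.Agent.P273.H598.Inst

/-! P273 / H379, BaseA: bounds of the vertical coefficients of `theFlatFam`. -/

namespace Vale.Agent.P273.H379

open Set Filter Complex
open scoped Topology Real
open Vale.Agent.P273.H598 (lg bb kap HH GG c0 NB NB2 exists_NB2 exp_lg)
open Vale.Agent.P273.H598.Sol (dot Dat)
open Vale.Agent.P273.H857 (C6 piX P)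
open Vale.Agent.P273.H580 (theStms theFlatFam mkA mkA_apply fl AX cX pX val_fl)
open Vale.Agent.P273.H730 (bd Adm yl alc)
open Vale.Agent.P273.H908 (Sl)

noncomputable section

theorem lg_neg_eq {d : ℂ} (hd : d ≠ 0) :
    lg (-d) = -((-Real.log ‖d‖ : ℝ) : ℂ) + ((lg (-d)).im : ℂ) * I := by
  have h1 : (lg (-d)).re = Real.log ‖d‖ := by
    have h2 := congrArg norm (exp_lg (neg_ne_zero.2 hd))
    rw [norm_exp, norm_neg] at h2
    rw [← h2, Real.log_exp]
  rw [← h1]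
  apply Complex.ext
  · simp
  · simp

theorem abs_im_lg_le (z : ℂ) : |(lg z).im| ≤ 6 := by
  unfold lg
  have h1 : (log (-I * z) + (π / 2) * I).im = arg (-I * z) + π / 2 := by
    rw [add_im, log_im]
    congr 1
    simp
  rw [h1, abs_le]
  have h2 := arg_le_pi (-I * z)
  have h3 := neg_pi_lt_arg (-I * z)
  have h4 := Real.pi_lt_d2
  have h5 := Real.pi_pos
  constructor <;> linarith

theorem norm_mkA_le (v : ℂ × ℂ × ℝ) : ‖mkA v‖ ≤ 2 * ‖v‖ := by
  refine ContinuousLinearMap.opNorm_le_bound _ (by positivity) fun z => ?_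
  have h := norm_dot_le v z
  rw [mkA_apply, Real.norm_eq_abs]
  exact (abs_re_le_norm _).trans h

variable {i : Fin 5} {V : Set C6} {ρ : ℝ}

/-- the data of one node -/
def DL (i : Fin 5) (ρ : ℝ) : Dat (ℂ × C6) where
  i0 := i.castSucc
  i1 := i.succ
  c p := (c0 (fun z => HH i 0 (p.2, z)) (5 * ρ) (p.1 ^ 2),
    c0 (fun z => HH i 1 (p.2, z)) (5 * ρ) (p.1 ^ 2))
  kap p := (kap i 0 ρ p, kap i 1 ρ p)
  pj p j := (piX 0 j (bb i p), piX 1 j (bb i p))

theorem neg_mem_Sl {q : C6} {d : ℂ} (hb : bb i (d, q) ∈ H681.XX) : -d ∈ Sl := by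
  by_cases h : d.re = 0
  · left
    have h1 := hb i.castSucc i.succ Fin.castSucc_lt_succ (by
      rw [H598.bb_zero, H598.bb_one, sub_re, add_re, h]
      ring)
    rw [H598.bb_zero, H598.bb_one, sub_im, add_im] at h1
    rw [neg_im]
    linarith
  · right
    rw [neg_re]
    exact neg_ne_zero.2 h

/-- **the six equations** -/
theorem six_DL (hP : H598.PotHyp) (h : NB i V ρ) {q : C6} (hq : q ∈ V) {d : ℂ} (hd : ‖d‖ < ρ / 2)
    (hb : bb i (d, q) ∈ H681.XX) {ξ : Fin 6 → ℝ} (hξ : H95.IsCl ξ) :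
    Six (DL i ρ) (d, q) (-Real.log ‖d‖) (lg (-d)).im ξ (fl ξ (bb i (d, q))) := by
  have hS := neg_mem_Sl hb
  have hd0 : d ≠ 0 := by
    have := H908.Sl_ne_zero hS
    simpa using this
  have key : ∀ j, (dot (fl ξ (bb i (d, q))) (piX 0 j (bb i (d, q)), piX 1 j (bb i (d, q)))).re +
      (fl ξ (bb i (d, q))).2.2 = ξ j := fun j => val_fl theStms (H580.isCl_alt hξ) hb j
  have e := lg_neg_eq hd0
  refine ⟨fun j _ _ => key j, ?_, ?_⟩
  · have h1 := key i.castSucc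
    rw [h.piX_zero hP (by norm_num) hq hd hS, h.piX_zero hP le_rfl hq hd hS] at h1
    rw [← e]
    refine Eq.trans ?_ h1
    show (dot _ _ + lg (-d) * dot _ _).re + _ = _
    congr 2
    unfold dot DL
    ring
  · have h1 := key i.succ
    rw [h.piX_one hP (by norm_num) hq hd hS, h.piX_one hP le_rfl hq hd hS] at h1
    rw [← e]
    refine Eq.trans ?_ h1
    show (dot _ _ + (lg (-d) - π * I) * dot _ _).re + _ = _
    congr 2
    unfold dot DL
    ring

theorem potHyp : H598.PotHyp :=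
  H598.PotHyp.of H857.stmHOLn H857.stmHOLRn H857.stmROOTn H857.stmFLIPRn H857.stmFLIPLn

theorem maps_sq (hρ : 0 < ρ) : MapsTo (fun p : ℂ × C6 => (p.1 ^ 2, p.2))
    (Metric.ball (0 : ℂ) ρ ×ˢ V) (Metric.ball (0 : ℂ) ((5 * ρ) ^ 2) ×ˢ V) := by
  intro p hp
  have hd' : ‖p.1‖ < ρ := mem_ball_zero_iff.1 hp.1
  refine ⟨mem_ball_zero_iff.2 ?_, hp.2⟩
  rw [norm_pow]
  exact pow_lt_pow_left₀ (by linarith) (norm_nonneg _) two_ne_zero

theorem diff_c0 (h : NB i V ρ) (m : ℕ) : DifferentiableOn ℂ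
    (fun p : ℂ × C6 => c0 (fun z => HH i m (p.2, z)) (5 * ρ) (p.1 ^ 2))
    (Metric.ball (0 : ℂ) ρ ×ˢ V) := by
  have hρ := h.pos
  have hHd : DifferentiableOn ℂ (HH i m) (V ×ˢ Metric.ball (0 : ℂ) (6 * ρ)) :=
    (H598.differentiableOn_HH m).mono h.gd
  have h1 : DifferentiableOn ℂ (fun p : ℂ × C6 => c0 (fun z => HH i m (p.2, z)) (5 * ρ) p.1)
      (Metric.ball (0 : ℂ) ((5 * ρ) ^ 2) ×ˢ V) :=
    H598.differentiableOn_c0 h.op (by linarith) (by linarith : 5 * ρ < 6 * ρ) hHd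
  have h2 : DifferentiableOn ℂ (fun p : ℂ × C6 => (p.1 ^ 2, p.2))
      (Metric.ball (0 : ℂ) ρ ×ˢ V) := by
    fun_prop
  exact DifferentiableOn.comp (f := fun p : ℂ × C6 => (p.1 ^ 2, p.2))
    (g := fun p : ℂ × C6 => c0 (fun z => HH i m (p.2, z)) (5 * ρ) p.1) h1 h2 (maps_sq hρ)

theorem smooth_of_diff {f : ℂ × C6 → ℂ} {r : ℝ} (hr : 0 < r) (hV : IsOpen V) {q : C6} (hq : q ∈ V)
    (hf : DifferentiableOn ℂ f (Metric.ball (0 : ℂ) r ×ˢ V)) : ContDiffAt ℝ 2 f (0, q) := by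
  have ho : IsOpen (Metric.ball (0 : ℂ) r ×ˢ V) := Metric.isOpen_ball.prod hV
  exact (H604.contDiffOn_real_of_differentiableOn ho hf).contDiffAt
    (ho.mem_nhds ⟨Metric.mem_ball_self hr, hq⟩)

/-- **the data of one node satisfy the hypotheses** -/
theorem DL_ok (h : NB2 i V ρ) {q : C6} (hq : q ∈ H828.XD i) (hqV : q ∈ V) :
    (DL i ρ).Ok (0, q) where
  ne := Fin.castSucc_lt_succ.ne
  c := (smooth_of_diff h.pos h.op hqV (diff_c0 h.toNB 0)).prodMk
    (smooth_of_diff h.pos h.op hqV (diff_c0 h.toNB 1))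
  kap := (smooth_of_diff (half_pos h.pos) h.op hqV (h.toNB.diff_kap potHyp (by norm_num))).prodMk
    (smooth_of_diff (half_pos h.pos) h.op hqV (h.toNB.diff_kap potHyp le_rfl))
  pj j h0 h1 := (smooth_of_diff h.pos h.op hqV (NB.diff_piX h potHyp (by norm_num) h0 h1)).prodMk
    (smooth_of_diff h.pos h.op hqV (NB.diff_piX h potHyp le_rfl h0 h1))
  inj v h0 hj := by
    refine inj_node hq h.toNB hqV v ?_ hj
    have h1 : dot v ((DL i ρ).c (0, q)) = 0 := h0
    unfold dot DL at h1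
    simpa using h1

theorem continuousAt_GG (h : NB i V ρ) {q : C6} (hq : q ∈ V) :
    ContinuousAt (fun q => (HH i 0 (q, 0))⁻¹) q := by
  have hG : (q, (0 : ℂ)) ∈ H598.Gd i := h.mem_gd hq (by simpa using h.pos)
  have h1 : ContinuousAt (HH i 0) (q, 0) :=
    ((H598.differentiableOn_HH 0).differentiableAt
      ((H598.isOpen_Gd i).mem_nhds hG)).continuousAt
  have h2 : ContinuousAt (fun q : C6 => HH i 0 (q, 0)) q :=
    ContinuousAt.comp (f := fun q : C6 => (q, (0 : ℂ))) h1 (by fun_prop)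
  refine h2.inv₀ ?_
  unfold HH
  rw [pow_zero]
  exact one_div_ne_zero (H598.GG_ne_zero (p := (q, 0)) hG)

theorem dot_node (h : NB i V ρ) {q : C6} (hq : q ∈ V) (v : ℂ × ℂ × ℝ) :
    v.1 + v.2.1 * q i.castSucc = (HH i 0 (q, 0))⁻¹ * dot v ((DL i ρ).c (0, q)) := by
  have hG : GG i q 0 ≠ 0 :=
    H598.GG_ne_zero (p := (q, 0)) (h.mem_gd hq (by simpa using h.pos))
  have e1 : HH i 0 (q, 0) = 1 / GG i q 0 := by
    unfold HH
    rw [pow_zero]
  have e2 : dot v ((DL i ρ).c (0, q)) =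
      v.1 * c0 (fun z => HH i 0 (q, z)) (5 * ρ) 0 + v.2.1 * c0 (fun z => HH i 1 (q, z)) (5 * ρ) 0 := by
    unfold dot DL
    simp
  rw [e1, e2, c0_node h hq, c0_node h hq, pow_zero, pow_one]
  field_simp

theorem isCl_alc (k : Fin 5) : H95.IsCl (alc k) := by
  unfold H95.IsCl
  rw [Fin.sum_univ_six]
  fin_cases k <;> simp [alc, Fin.ext_iff] <;> norm_num

/-- **BaseA for the family of flat forms.** -/
theorem baseA : H225.BaseA theFlatFam := by
  intro k q₀ hq₀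
  obtain ⟨V, ρ, h, hV⟩ := exists_NB2 hq₀
  obtain ⟨U, hU, M₀, B, hM₀, hB, key⟩ := six_bounds (k := k.castSucc) (DL_ok h hq₀ hV)
    (continuousAt_GG h.toNB hV) (by
      filter_upwards [h.op.mem_nhds hV] with q hq using dot_node h.toNB hq)
  refine ⟨U ∩ V, inter_mem hU (h.op.mem_nhds hV), 1, one_pos, fun c hc0 hc1 => ?_⟩
  refine ⟨max (2 * M₀) (2 * (-Real.log (ρ / 2)) + 2), 4 * B,
    lt_of_lt_of_le (by linarith) (le_max_left _ _), by linarith, fun q d ha ξ hξ => ?_⟩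
  have hd0 : 0 < ‖d‖ := norm_pos_iff.2 ha.d0
  set M : ℝ := -Real.log ‖d‖ with hM
  set y : ℝ := yl c d with hy
  have hyM : y ≤ 2 * M := by
    have h1 : y = 2 * (Real.log c - Real.log ‖d‖) := by
      rw [hy]; unfold yl
      rw [Real.log_div hc0.ne' hd0.ne']
    have h2 := Real.log_nonpos hc0.le hc1
    rw [h1, hM]; linarith
  have hy1 : 2 * M₀ ≤ y := (le_max_left _ _).trans ha.len
  have hy2 : 2 * (-Real.log (ρ / 2)) + 2 ≤ y := (le_max_right _ _).trans ha.len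
  have hy0 : 0 < y := by linarith
  have hM0 : 0 < M := by linarith
  have hdρ : ‖d‖ < ρ / 2 := by
    refine (Real.log_lt_log_iff hd0 (half_pos h.pos)).1 ?_
    linarith
  have hMy : M⁻¹ ≤ 2 * y⁻¹ := by
    rw [show 2 * y⁻¹ = (y / 2)⁻¹ by rw [inv_div]; ring]
    exact inv_anti₀ (by linarith) (by linarith)
  have hy0' : 0 < y⁻¹ := inv_pos.2 hy0
  have hbd : ∀ ξ, H95.IsCl ξ → Six (DL k ρ) (d, q) M (lg (-d)).im ξ (fl ξ (bd k q d)) :=
    fun ξ hξ => six_DL potHyp h.toNB ha.qU.2 hdρ ha.mem hξ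
  have h1 := key q ha.qU.1 d ha.d0 M (lg (-d)).im rfl (by linarith) (abs_im_lg_le _) ξ _ (hbd ξ hξ)
  have h2 := (key q ha.qU.1 d ha.d0 M (lg (-d)).im rfl (by linarith) (abs_im_lg_le _) (alc k) _
    (hbd _ (isCl_alc k))).2.2 (by simp [DL, alc]) (by simp [DL, alc]) (fun j h0 h1 => by
      simp only [DL] at h0 h1
      simp [alc, h0, h1])
  refine ⟨?_, fun he z => ?_, ?_⟩
  · have h4 : 0 ≤ B * ‖ξ‖ := by positivity
    exact (norm_mkA_le _).trans (by linarith [h1.1])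
  · have h3 := h1.2.1 he
    have e : theFlatFam.A ξ (bd k q d) (z, q k.castSucc * z) =
        (((fl ξ (bd k q d)).1 + (fl ξ (bd k q d)).2.1 * q k.castSucc) * z).re := by
      show mkA (fl ξ (bd k q d)) (z, q k.castSucc * z) = _
      rw [mkA_apply]
      congr 1
      ring
    rw [e]
    refine (abs_re_le_norm _).trans ?_
    rw [norm_mul]
    refine mul_le_mul_of_nonneg_right (h3.trans ?_) (norm_nonneg _)
    have h4 : 0 ≤ B * ‖ξ‖ := by positivity
    have := mul_le_mul_of_nonneg_left hMy h4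
    have h5 : 0 ≤ B * ‖ξ‖ * y⁻¹ := by positivity
    linarith
  · refine (norm_mkA_le _).trans ?_
    have := mul_le_mul_of_nonneg_left hMy hB.le
    linarith

end

end Vale.Agent.P273.H379
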