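import Vale.Agent.P273.H598.Sol

/-! P273 / H379, BaseA (abstract part): bounds of the coefficients near the divisor, from the six
equations and the explicit solution of H598/Sol. -/

namespace Vale.Agent.P273.H379

open Set Filter Complex
open scoped Topology Real
open Vale.Agent.P273.H598.Sol (dot Dat)

noncomputable section

/-- the six equations at one node -/
structure Six {Q : Type*} (D : Dat Q) (p : Q) (M φ : ℝ) (ξ : Fin 6 → ℝ) (v : ℂ × ℂ × ℝ) :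
    Prop where
  off : ∀ j, j ≠ D.i0 → j ≠ D.i1 → (dot v (D.pj p j)).re + v.2.2 = ξ j
  e0 : (dot v (D.kap p) + (-(M : ℂ) + φ * I) * dot v (D.c p)).re + v.2.2 = ξ D.i0
  e1 : (dot v (D.kap p) + (-(M : ℂ) + φ * I - π * I) * dot v (D.c p)).re + v.2.2 = ξ D.i1

theorem norm_dot_le (v : ℂ × ℂ × ℝ) (c : ℂ × ℂ) : ‖dot v c‖ ≤ 2 * ‖v‖ * ‖c‖ := by
  unfold dot
  have h1 : ‖v.1‖ ≤ ‖v‖ := norm_fst_le v
  have h2 : ‖v.2.1‖ ≤ ‖v‖ := (norm_fst_le v.2).trans (norm_snd_le v)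
  have h3 : ‖c.1‖ ≤ ‖c‖ := norm_fst_le c
  have h4 : ‖c.2‖ ≤ ‖c‖ := norm_snd_le c
  have h5 := norm_add_le (v.1 * c.1) (v.2.1 * c.2)
  rw [norm_mul, norm_mul] at h5
  have h6 := mul_le_mul h1 h3 (norm_nonneg _) (norm_nonneg _)
  have h7 := mul_le_mul h2 h4 (norm_nonneg _) (norm_nonneg _)
  linarith

theorem dot_sub (v : ℂ × ℂ × ℝ) (c c' : ℂ × ℂ) : dot v (c - c') = dot v c - dot v c' := by
  simp only [dot, Prod.fst_sub, Prod.snd_sub]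
  ring

/-- **bounds of the coefficients near the divisor** -/
theorem six_bounds {k : Fin 6} {q₀ : Fin 6 → ℂ} {D : Dat (ℂ × (Fin 6 → ℂ))} (h : D.Ok (0, q₀))
    {g : (Fin 6 → ℂ) → ℂ} (hg : ContinuousAt g q₀)
    (hc : ∀ᶠ q in 𝓝 q₀, ∀ v, v.1 + v.2.1 * q k = g q * dot v (D.c (0, q))) :
    ∃ U ∈ 𝓝 q₀, ∃ M₀ B : ℝ, 0 < M₀ ∧ 0 < B ∧ ∀ q ∈ U, ∀ d : ℂ, d ≠ 0 → ∀ M φ : ℝ,
      M = -Real.log ‖d‖ → M₀ ≤ M → |φ| ≤ 6 → ∀ ξ v, Six D (d, q) M φ ξ v →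
        ‖v‖ ≤ B * ‖ξ‖ ∧
        (ξ D.i0 = ξ D.i1 → ‖v.1 + v.2.1 * q k‖ ≤ B * ‖ξ‖ * M⁻¹) ∧
        (ξ D.i0 = 1 → ξ D.i1 = 1 → (∀ j, j ≠ D.i0 → j ≠ D.i1 → ξ j = 0) → ‖v‖ ≤ B * M⁻¹) := by
  obtain ⟨A, hA⟩ := Dat.exists_Bds h
  obtain ⟨K, t, ht, hlip⟩ := (h.c.of_le (by norm_num : (1 : WithTop ℕ∞) ≤ 2)).exists_lipschitzOnWith
  have hgb : ∀ᶠ q in 𝓝 q₀, ‖g q‖ < ‖g q₀‖ + 1 := hg.norm.eventually (gt_mem_nhds (by linarith))
  have ha : ∀ᶠ p : ℂ × (Fin 6 → ℂ) in 𝓝 (0, q₀), Dat.Bds h A p ∧ p ∈ t :=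
    hA.and (show ∀ᶠ p in 𝓝 _, p ∈ t from ht)
  rw [nhds_prod_eq] at ha
  obtain ⟨pa, h1, pb, h2, hab⟩ := Filter.eventually_prod_iff.1 ha
  obtain ⟨r, hr, hr2⟩ := Metric.eventually_nhds_iff.1 h1
  have hA1 : 1 ≤ A := by
    have := hab (hr2 (show dist (0 : ℂ) 0 < r by simpa using hr)) h2.self_of_nhds
    exact this.1.A1
  set G : ℝ := ‖g q₀‖ + 1 with hG
  have hG0 : 0 < G := by positivity
  set B : ℝ := 8 * A * A + 4 + G * (2 * (A + 1) + 2 * (8 * A * A + 4) * K + 1) with hB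
  refine ⟨{q | pb q} ∩ ({q | ‖g q‖ < G} ∩ {q | ∀ v : ℂ × ℂ × ℝ, v.1 + v.2.1 * q k =
    g q * dot v (D.c (0, q))}), inter_mem h2 (inter_mem hgb hc), max (2 * A) (-Real.log r + 1), B,
    lt_of_lt_of_le (by linarith) (le_max_left _ _), by positivity, ?_⟩
  rintro q ⟨hq1, hq2, hq3⟩ d hd M φ hM hM0 hφ ξ v hv
  have hMA : 2 * A ≤ M := (le_max_left _ _).trans hM0
  have hM1 : 0 < M := by linarith
  have hd0 : 0 < ‖d‖ := norm_pos_iff.2 hd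
  have hdr : ‖d‖ < r := by
    have h3 : -Real.log r + 1 ≤ M := (le_max_right _ _).trans hM0
    rw [hM] at h3
    exact (Real.log_lt_log_iff hd0 hr).1 (by linarith)
  have hdM : ‖d‖ ≤ M⁻¹ := by
    have h3 : ‖d‖ = Real.exp (-M) := by rw [hM, neg_neg, Real.exp_log hd0]
    rw [h3, Real.exp_neg, inv_le_inv₀ (Real.exp_pos _) hM1]
    have := Real.add_one_le_exp M
    linarith
  obtain ⟨hb, hpt⟩ := hab (hr2 (show dist d 0 < r by rwa [dist_zero_right])) hq1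
  obtain ⟨-, hp0⟩ := hab (hr2 (show dist (0 : ℂ) 0 < r by simpa using hr)) hq1
  have hmu := abs_le.1 (show |Dat.mu h (d, q)| ≤ A from hb.m.2.1)
  obtain ⟨ev, ec⟩ := Dat.eq_vs h hb.left (show M - Dat.mu h (d, q) ≠ 0 by
    have := hmu.2
    intro h0
    linarith) hv.off hv.e0 hv.e1
  have nv : ∀ {σ s β : ℝ}, Dat.Sz ξ h A σ s β (d, q) →
      ‖v‖ ≤ A * σ + A * (2 * (A * σ + s + 2 * β) * M⁻¹) := by
    intro σ s β hs
    have h3 := (Dat.hasFDerivAt_vs (E := ℝ) (p := fun _ => (d, q)) (M := fun _ => M)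
      (φ := fun _ => φ) (t := 0) hb hs hMA hφ (hasFDerivAt_const _ _) (hasFDerivAt_const _ _)
      (hasFDerivAt_const _ _)).1
    rw [← ev] at h3
    rwa [div_eq_mul_inv] at h3
  have nx : ∀ {σ s β : ℝ}, Dat.Sz ξ h A σ s β (d, q) →
      |Dat.xs h (d, q) M φ ξ| ≤ 2 * (A * σ + s + 2 * β) * M⁻¹ := by
    intro σ s β hs
    have h3 := Dat.xs_le (E := ℝ) (p := fun _ => (d, q)) (M := fun _ => M)
      (φ := fun _ => φ) (t := 0) hb hs hMA hφ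
    rwa [div_eq_mul_inv] at h3
  have hMinv : M⁻¹ ≤ 1 / 2 := by
    rw [inv_le_comm₀ hM1 (by norm_num)]
    linarith
  have hMinv0 : 0 < M⁻¹ := inv_pos.2 hM1
  have hξ := norm_nonneg ξ
  have hβ : |ξ D.i1 - ξ D.i0| ≤ 2 * ‖ξ‖ := by
    have h3 := abs_sub (ξ D.i1) (ξ D.i0)
    have h4 : |ξ D.i1| ≤ ‖ξ‖ := norm_le_pi_norm ξ D.i1
    have h5 : |ξ D.i0| ≤ ‖ξ‖ := norm_le_pi_norm ξ D.i0
    linarith
  have b1 : ‖v‖ ≤ (8 * A * A + 4) * ‖ξ‖ := by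
    have h3 := nv (hb.sz ξ)
    have h4 : A * (2 * (A * ‖ξ‖ + ‖ξ‖ + 2 * |ξ D.i1 - ξ D.i0|) * M⁻¹) ≤
        A * (2 * (A * ‖ξ‖ + ‖ξ‖ + 4 * ‖ξ‖) * (1 / 2)) := by
      have h5 : 2 * (A * ‖ξ‖ + ‖ξ‖ + 2 * |ξ D.i1 - ξ D.i0|) ≤ 2 * (A * ‖ξ‖ + ‖ξ‖ + 4 * ‖ξ‖) := by
        linarith
      have h6 : 0 ≤ 2 * (A * ‖ξ‖ + ‖ξ‖ + 4 * ‖ξ‖) := by positivity
      exact mul_le_mul_of_nonneg_left (mul_le_mul h5 hMinv hMinv0.le h6) (by linarith)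
    have h7 : A * A + 6 * A ≤ 8 * A * A + 4 := by nlinarith
    have h8 := mul_le_mul_of_nonneg_right h7 hξ
    have h9 : A * ‖ξ‖ + A * (2 * (A * ‖ξ‖ + ‖ξ‖ + 4 * ‖ξ‖) * (1 / 2)) =
      (A * A + 6 * A) * ‖ξ‖ := by ring
    linarith
  have hB1 : 8 * A * A + 4 ≤ B := by
    have : 0 ≤ G * (2 * (A + 1) + 2 * (8 * A * A + 4) * K + 1) := by positivity
    linarith
  refine ⟨b1.trans (mul_le_mul_of_nonneg_right hB1 hξ), fun he => ?_, fun h0 h1 h2 => ?_⟩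
  · rw [hq3 v, norm_mul]
    have hβ0 : |ξ D.i1 - ξ D.i0| = 0 := by rw [he, sub_self, abs_zero]
    have h3 : ‖dot v (D.c (d, q))‖ ≤ 2 * (A + 1) * ‖ξ‖ * M⁻¹ := by
      rw [ec, he, sub_self, zero_div, ofReal_zero, zero_mul, add_zero, norm_real, Real.norm_eq_abs]
      refine (nx (hb.sz ξ)).trans (le_of_eq ?_)
      rw [hβ0]
      ring
    have h4 : ‖D.c (0, q) - D.c (d, q)‖ ≤ K * M⁻¹ := by
      have h5 := hlip.norm_sub_le hp0 hpt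
      have h6 : ‖((0 : ℂ), q) - (d, q)‖ = ‖d‖ := by
        rw [Prod.mk_sub_mk, sub_self, zero_sub, Prod.norm_mk, norm_neg, norm_zero,
          max_eq_left (norm_nonneg _)]
      rw [h6] at h5
      exact h5.trans (mul_le_mul_of_nonneg_left hdM K.2)
    have h5 : ‖dot v (D.c (0, q))‖ ≤ (2 * (A + 1) + 2 * (8 * A * A + 4) * K) * ‖ξ‖ * M⁻¹ := by
      have e : dot v (D.c (0, q)) = dot v (D.c (d, q)) + dot v (D.c (0, q) - D.c (d, q)) := by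
        rw [dot_sub]; ring
      rw [e]
      have h6 := norm_dot_le v (D.c (0, q) - D.c (d, q))
      have h7 : 2 * ‖v‖ * ‖D.c (0, q) - D.c (d, q)‖ ≤
          2 * ((8 * A * A + 4) * ‖ξ‖) * (K * M⁻¹) := by
        refine mul_le_mul (by linarith) h4 (norm_nonneg _) (by positivity)
      refine (norm_add_le _ _).trans ?_
      calc _ ≤ 2 * (A + 1) * ‖ξ‖ * M⁻¹ + 2 * ((8 * A * A + 4) * ‖ξ‖) * (K * M⁻¹) :=
            add_le_add h3 (h6.trans h7)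
        _ = _ := by ring
    have hq2' : ‖g q‖ ≤ G := le_of_lt hq2
    calc ‖g q‖ * ‖dot v (D.c (0, q))‖ ≤
          G * ((2 * (A + 1) + 2 * (8 * A * A + 4) * K) * ‖ξ‖ * M⁻¹) :=
          mul_le_mul hq2' h5 (norm_nonneg _) hG0.le
      _ = (G * (2 * (A + 1) + 2 * (8 * A * A + 4) * K)) * (‖ξ‖ * M⁻¹) := by ring
      _ ≤ B * (‖ξ‖ * M⁻¹) := by
          refine mul_le_mul_of_nonneg_right ?_ (by positivity)
          rw [hB]
          have : 0 ≤ 8 * A * A + 4 := by positivity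
          nlinarith
      _ = _ := by ring
  · have h3 := nv (hb.sz_alc h0 h1 h2)
    have h4 : A * 0 + A * (2 * (A * 0 + 1 + 2 * 0) * M⁻¹) = (2 * A) * M⁻¹ := by ring
    rw [h4] at h3
    refine h3.trans (mul_le_mul_of_nonneg_right ?_ hMinv0.le)
    refine le_trans ?_ hB1
    nlinarith

end

end Vale.Agent.P273.H379
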