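import Vale.Agent.P273.H595.Nat
import Vale.Agent.P273.H379.GPath

/-! P273 / H379, row E-REG: combinatorics of the admissible sets when two labels `i`, `i'` sit at the
same point `e` (both are passed on the same side). -/

namespace Vale.Agent.P273.H379

open Complex Set Filter Topology H857
open scoped ContDiff Real

noncomputable section

/-- the labels outside the pair -/
abbrev Io (i i' : Fin 6) : Type := {l : Fin 6 // l ≠ i ∧ l ≠ i'}

variable {i i' : Fin 6}

/-- a set of labels outside the pair as a set of labels -/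
def upS (A : Finset (Io i i')) : Finset (Fin 6) := A.map (Function.Embedding.subtype _)

/-- `c = true`: the pair is passed from below -/
def ty (c : Bool) (A : Finset (Io i i')) : Finset (Fin 6) :=
  if c = true then insert i (insert i' (upS A)) else upS A

theorem mem_upS {A : Finset (Io i i')} {l : Fin 6} :
    l ∈ upS A ↔ ∃ h : l ≠ i ∧ l ≠ i', (⟨l, h⟩ : Io i i') ∈ A := by
  unfold upS
  simp only [Finset.mem_map, Function.Embedding.coe_subtype, Subtype.exists, exists_and_right,
    exists_eq_right]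

theorem val_mem_upS {A : Finset (Io i i')} {l : Io i i'} : (l : Fin 6) ∈ upS A ↔ l ∈ A := by
  rw [mem_upS]
  exact ⟨fun ⟨_, h⟩ => h, fun h => ⟨l.2, h⟩⟩

theorem i_notMem_upS {A : Finset (Io i i')} : i ∉ upS A := fun h => by
  obtain ⟨h1, -⟩ := mem_upS.1 h
  exact h1.1 rfl

theorem i'_notMem_upS {A : Finset (Io i i')} : i' ∉ upS A := fun h => by
  obtain ⟨h1, -⟩ := mem_upS.1 h
  exact h1.2 rfl

theorem val_mem_ty {c : Bool} {A : Finset (Io i i')} {l : Io i i'} :
    (l : Fin 6) ∈ ty c A ↔ l ∈ A := by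
  unfold ty
  split_ifs
  · rw [Finset.mem_insert, Finset.mem_insert, val_mem_upS]
    have h1 := l.2.1
    have h2 := l.2.2
    tauto
  · exact val_mem_upS

theorem i_mem_ty {c : Bool} {A : Finset (Io i i')} : i ∈ ty c A ↔ c = true := by
  unfold ty
  split_ifs with h
  · simp [h]
  · exact ⟨fun h' => absurd h' i_notMem_upS, fun h' => absurd h' h⟩

theorem i'_mem_ty {c : Bool} {A : Finset (Io i i')} : i' ∈ ty c A ↔ c = true := by
  unfold ty
  split_ifs with h
  · simp [h]
  · exact ⟨fun h' => absurd h' i'_notMem_upS, fun h' => absurd h' h⟩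

theorem ty_insert {c : Bool} {A : Finset (Io i i')} (m : Io i i') :
    ty c (insert m A) = insert (m : Fin 6) (ty c A) := by
  ext l
  by_cases h1 : l = i
  · subst h1
    rw [i_mem_ty, Finset.mem_insert, i_mem_ty]
    exact ⟨Or.inr, fun h => h.resolve_left fun h' => m.2.1 h'.symm⟩
  by_cases h2 : l = i'
  · subst h2
    rw [i'_mem_ty, Finset.mem_insert, i'_mem_ty]
    exact ⟨Or.inr, fun h => h.resolve_left fun h' => m.2.2 h'.symm⟩
  have e : l = ((⟨l, h1, h2⟩ : Io i i') : Fin 6) := rfl
  rw [e, val_mem_ty, Finset.mem_insert, Finset.mem_insert, val_mem_ty]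
  rw [Subtype.ext_iff]

/-- cases on a label -/
theorem lab (l : Fin 6) : l = i ∨ l = i' ∨ ∃ l' : Io i i', l = l' := by
  by_cases h1 : l = i
  · exact Or.inl h1
  by_cases h2 : l = i'
  · exact Or.inr (Or.inl h2)
  exact Or.inr (Or.inr ⟨⟨l, h1, h2⟩, rfl⟩)

/-- the four points -/
def b4 (q : C6) (l : Io i i') : ℂ := q l

/-- admissibility for the four labels (a root at the starting point is not counted) -/
def OK4 (q : C6) (A : Finset (Io i i')) (x : ℂ) : Prop :=
  (∀ l ∈ A, ∀ m ∉ A, (b4 q l).re = (b4 q m).re → x.re < (b4 q l).re →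
    (b4 q m).im < (b4 q l).im) ∧
  ∀ l, b4 q l ≠ x → (b4 q l).re = x.re → (l ∈ A → x.im < (b4 q l).im) ∧
    (l ∉ A → (b4 q l).im < x.im)

/-- the conditions for the pair at `e` -/
def CC (q : C6) (e : ℂ) (c : Bool) (A : Finset (Io i i')) (x : ℂ) : Prop :=
  (∀ l, (b4 q l).re = e.re → x.re < e.re →
    (c = false → l ∈ A → e.im < (b4 q l).im) ∧ (c = true → l ∉ A → (b4 q l).im < e.im)) ∧
  (e ≠ x → e.re = x.re → (c = true → x.im < e.im) ∧ (c = false → e.im < x.im))

variable {q : C6} {e : ℂ}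

theorem ok_ty (hi : q i = e) (hi' : q i' = e) {c : Bool} {A : Finset (Io i i')} {x : ℂ} :
    OK (ty c A) q x ↔ OK4 q A x ∧ CC q e c A x := by
  constructor
  · intro h
    refine ⟨⟨fun l hl m hm h1 h2 => h.1 l (val_mem_ty.2 hl) m (fun h' => hm (val_mem_ty.1 h')) h1 h2,
      fun l hl h1 => ⟨fun h2 => (h.2 l hl h1).1 (val_mem_ty.2 h2), fun h2 =>
        (h.2 l hl h1).2 fun h' => h2 (val_mem_ty.1 h')⟩⟩, fun l hl hx => ⟨fun hc hA => ?_,
        fun hc hA => ?_⟩, fun hx hr => ⟨fun hc => ?_, fun hc => ?_⟩⟩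
    · have hn : i ∉ ty c A := by rw [i_mem_ty, hc]; simp
      have := h.1 l (val_mem_ty.2 hA) i hn (by rw [hi]; exact hl) (by
        have : (q l).re = e.re := hl
        rw [this]; exact hx)
      rw [hi] at this
      exact this
    · have hn : i ∈ ty c A := by rw [i_mem_ty, hc]
      have := h.1 i hn l (fun h' => hA (val_mem_ty.1 h')) (by rw [hi]; exact hl.symm)
        (by rw [hi]; exact hx)
      rw [hi] at this
      exact this
    · have := (h.2 i (by rw [hi]; exact hx) (by rw [hi]; exact hr)).1 (i_mem_ty.2 hc)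
      rwa [hi] at this
    · have := (h.2 i (by rw [hi]; exact hx) (by rw [hi]; exact hr)).2 (by
        rw [i_mem_ty, hc]; simp)
      rwa [hi] at this
  · rintro ⟨h, hc⟩
    -- the two labels of the pair behave in the same way
    have key : ∀ l : Fin 6, (l = i ∨ l = i') → q l = e ∧ (l ∈ ty c A ↔ c = true) := by
      rintro l (rfl | rfl)
      · exact ⟨hi, i_mem_ty⟩
      · exact ⟨hi', i'_mem_ty⟩
    have lab2 : ∀ l : Fin 6, (l = i ∨ l = i') ∨ ∃ l' : Io i i', l = l' := by
      intro l
      rcases lab (i := i) (i' := i') l with h1 | h1 | h1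
      · exact Or.inl (Or.inl h1)
      · exact Or.inl (Or.inr h1)
      · exact Or.inr h1
    constructor
    · intro l hl m hm h1 h2
      rcases lab2 l with hl' | ⟨l', rfl⟩
      · obtain ⟨k1, k2⟩ := key l hl'
        have hct := k2.1 hl
        rcases lab2 m with hm' | ⟨m', rfl⟩
        · exact absurd ((key m hm').2.2 hct) hm
        · rw [k1] at h1 h2 ⊢
          exact (hc.1 m' h1.symm h2).2 hct fun h' => hm (val_mem_ty.2 h')
      · rcases lab2 m with hm' | ⟨m', rfl⟩
        · obtain ⟨k1, k2⟩ := key m hm'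
          have hcf : c = false := by
            cases c
            · rfl
            · exact absurd (k2.2 rfl) hm
          rw [k1] at h1 ⊢
          have h3 : x.re < e.re := by rw [← h1]; exact h2
          exact (hc.1 l' h1 h3).1 hcf (val_mem_ty.1 hl)
        · exact h.1 l' (val_mem_ty.1 hl) m' (fun h' => hm (val_mem_ty.2 h')) h1 h2
    · intro l hl h1
      rcases lab2 l with hl' | ⟨l', rfl⟩
      · obtain ⟨k1, k2⟩ := key l hl'
        rw [k1] at hl h1 ⊢
        refine ⟨fun h2 => (hc.2 hl h1).1 (k2.1 h2), fun h2 => (hc.2 hl h1).2 ?_⟩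
        cases c
        · rfl
        · exact absurd (k2.2 rfl) h2
      · exact ⟨fun h2 => (h.2 l' hl h1).1 (val_mem_ty.1 h2), fun h2 =>
          (h.2 l' hl h1).2 fun h' => h2 (val_mem_ty.2 h')⟩

theorem CC_of_gt {A : Finset (Io i i')} {x : ℂ} (hx : e.re < x.re) (c : Bool) : CC q e c A x :=
  ⟨fun _ _ h => absurd h (lt_asymm hx), fun _ h => absurd h hx.ne⟩

/-- one of the two sides is admissible, for `A` and `insert m A` at the same time -/
theorem exists_CC {A : Finset (Io i i')} {m : Io i i'} {x : ℂ} (hx : x ≠ e)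
    (hinj : ∀ l : Io i i', b4 q l ≠ e) (h : OK4 q A x) (h' : OK4 q (insert m A) x) :
    ∃ c, CC q e c A x ∧ CC q e c (insert m A) x := by
  rcases lt_trichotomy x.re e.re with hlt | heq | hgt
  · by_cases hf : ∀ l ∈ insert m A, (b4 q l).re = e.re → e.im < (b4 q l).im
    · exact ⟨false, ⟨fun l hl _ => ⟨fun _ hA => hf l (Finset.mem_insert_of_mem hA) hl, by simp⟩,
        fun _ h2 => absurd h2 hlt.ne'⟩, ⟨fun l hl _ => ⟨fun _ hA => hf l hA hl, by simp⟩,
        fun _ h2 => absurd h2 hlt.ne'⟩⟩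
    · push Not at hf
      obtain ⟨l, hl, hre, him⟩ := hf
      have hne : (b4 q l).im ≠ e.im := fun h1 => hinj l (Complex.ext hre h1)
      have him' : (b4 q l).im < e.im := lt_of_le_of_ne him hne
      have claim : ∀ k, k ∉ insert m A → (b4 q k).re = e.re → (b4 q k).im < e.im :=
        fun k hk hmr =>
        (h'.1 l hl k hk (hre.trans hmr.symm) (by rw [hre]; exact hlt)).trans him'
      have claim2 : ∀ k, k ∉ A → (b4 q k).re = e.re → (b4 q k).im < e.im := by
        intro k hk hmr
        by_cases hk' : k ∈ insert m A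
        · by_cases hlA : l ∈ A
          · exact (h.1 l hlA k hk (hre.trans hmr.symm) (by rw [hre]; exact hlt)).trans him'
          · have e1 : l = m := (Finset.mem_insert.1 hl).resolve_right hlA
            have e2 : k = m := (Finset.mem_insert.1 hk').resolve_right hk
            rw [e2, ← e1]; exact him'
        · exact claim k hk' hmr
      exact ⟨true, ⟨fun k hk _ => ⟨by simp, fun _ hA => claim2 k hA hk⟩, fun _ h2 =>
        absurd h2 hlt.ne'⟩, ⟨fun k hk _ => ⟨by simp, fun _ hA => claim k hA hk⟩, fun _ h2 =>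
        absurd h2 hlt.ne'⟩⟩
  · have him : x.im ≠ e.im := fun h1 => hx (Complex.ext heq h1)
    rcases lt_or_gt_of_ne him with h1 | h1
    · have : ∀ A : Finset (Io i i'), CC q e true A x := fun A =>
        ⟨fun _ _ h => absurd h (by rw [heq]; exact lt_irrefl _), fun _ _ => ⟨fun _ => h1, by simp⟩⟩
      exact ⟨true, this _, this _⟩
    · have : ∀ A : Finset (Io i i'), CC q e false A x := fun A =>
        ⟨fun _ _ h => absurd h (by rw [heq]; exact lt_irrefl _), fun _ _ => ⟨by simp, fun _ => h1⟩⟩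
      exact ⟨false, this _, this _⟩
  · exact ⟨false, CC_of_gt hgt _, CC_of_gt hgt _⟩

theorem exists_CC' {A : Finset (Io i i')} {x : ℂ} (hx : x ≠ e)
    (hinj : ∀ l : Io i i', b4 q l ≠ e) (h : OK4 q A x) : ∃ c, CC q e c A x := by
  rcases A.eq_empty_or_nonempty with rfl | ⟨m, hm⟩
  · rcases lt_trichotomy x.re e.re with hlt | heq | hgt
    · exact ⟨false, fun l _ _ => ⟨fun _ h => absurd h (Finset.notMem_empty l), by simp⟩, fun _ h2 =>
        absurd h2 hlt.ne'⟩
    · have him : x.im ≠ e.im := fun h1 => hx (Complex.ext heq h1)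
      rcases lt_or_gt_of_ne him with h1 | h1
      · exact ⟨true, fun _ _ h => absurd h (by rw [heq]; exact lt_irrefl _),
          fun _ _ => ⟨fun _ => h1, by simp⟩⟩
      · exact ⟨false, fun _ _ h => absurd h (by rw [heq]; exact lt_irrefl _),
          fun _ _ => ⟨by simp, fun _ => h1⟩⟩
    · exact ⟨false, CC_of_gt hgt _⟩
  · have h' : OK4 q (insert m A) x := by rw [Finset.insert_eq_of_mem hm]; exact h
    obtain ⟨c, hc, -⟩ := exists_CC hx hinj h h'
    exact ⟨c, hc⟩

theorem Dom.ok4 {A : Finset (Io i i')} {x : ℂ} (h : Dom A (b4 q) x) : OK4 q A x :=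
  ⟨fun l hl m hm h1 h2 => h.2 l hl m hm h2 h1, fun l _ h1 => h.1 l h1⟩

theorem RDom.ok4 {A : Finset (Io i i')} {j : Io i i'} (h : RDom A (b4 q) j) :
    OK4 q A (b4 q j) :=
  ⟨fun l hl m hm h1 h2 => h.2.2 l hl m hm h2 h1, fun l hl h1 => h.2.1 l (fun e => hl (by rw [e])) h1⟩

end

end Vale.Agent.P273.H379
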