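import Vale.Agent.P273.H379.NodeA

/-! P273 / H379, row E-REG: primitives of `a (x - e) dx / y` at a node `e`: passing the node from above
or from below gives the same value. -/

namespace Vale.Agent.P273.H379

open Complex Set Filter Topology H857 H595
open scoped ContDiff Real

noncomputable section

variable {i i' : Fin 6} {q : C6} {e a : ℂ} {F : Finset (Fin 6) → ℂ → ℂ}

/-- primitives with label sets of six labels, of the form `a (x - e) dx / y` -/
structure N6 (q : C6) (e a : ℂ) (F : Finset (Fin 6) → ℂ → ℂ) : Prop where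
  deriv : ∀ B x, OK B q x → (∀ l, q l ≠ x) → HasDerivAt (F B) (a * (x - e) / sq B q x) x
  flipR : ∀ B x m, SR q x → m ∉ B → OK B q x → OK (insert m B) q x → (q m).re ≤ x.re →
    F (insert m B) x = F B x
  flipL : ∀ B x m, SR q x → m ∉ B → OK B q x → OK (insert m B) q x → x.re < (q m).re →
    F (insert m B) x + F B x = 2 * F B (q m)
  root : ∀ B j, OK B q (q j) → j ∉ B → (∀ l, l ≠ j → q l ≠ q j) →
    Tendsto (F B) (𝓝[side (q j)] (q j)) (𝓝 (F B (q j)))
  path : ∀ B x, OK B q x → ∃ g, Adm B q x g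

/-- the pair sits at `e`, the other four points are distinct and different from `e` -/
structure Pair (q : C6) (i i' : Fin 6) (e : ℂ) : Prop where
  ne : i ≠ i'
  eq : q i = e
  eq' : q i' = e
  inj : Function.Injective (b4 q : Io i i' → ℂ)
  off : ∀ l : Io i i', b4 q l ≠ e

/-- the form without the double root -/
def f4 (q : C6) (a : ℂ) (A : Finset (Io i i')) (z : ℂ) : ℂ :=
  a / ∏ l : Io i i', br (upS A) l (z - b4 q l)

theorem Pair.sq_eq (hp : Pair q i i' e) (c : Bool) (A : Finset (Io i i')) (z : ℂ) :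
    sq (ty c A) q z = (z - e) * ∏ l : Io i i', br (upS A) l (z - b4 q l) := by
  unfold H857.sq
  have h1 : i' ∈ Finset.univ.erase i := Finset.mem_erase.2 ⟨hp.ne.symm, Finset.mem_univ _⟩
  rw [← Finset.mul_prod_erase _ _ (Finset.mem_univ i), ← Finset.mul_prod_erase _ _ h1,
    Finset.prod_subtype (p := fun l => l ≠ i ∧ l ≠ i') ((Finset.univ.erase i).erase i') (by
      intro x
      simp only [Finset.mem_erase, Finset.mem_univ, and_true]
      tauto), ← mul_assoc]
  congr 1
  · have h2 : br (ty c A) i' (z - q i') = br (ty c A) i (z - q i) := by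
      rw [hp.eq, hp.eq']
      unfold br
      by_cases hc : c = true
      · rw [if_pos (i'_mem_ty.2 hc), if_pos (i_mem_ty.2 hc)]
      · rw [if_neg (fun h => hc (i'_mem_ty.1 h)), if_neg (fun h => hc (i_mem_ty.1 h))]
    rw [h2, br_mul_self, hp.eq]
  · refine Finset.prod_congr rfl fun l _ => ?_
    unfold br
    by_cases hl : l ∈ A
    · rw [if_pos (val_mem_ty.2 hl), if_pos (val_mem_upS.2 hl)]; rfl
    · rw [if_neg (fun h => hl (val_mem_ty.1 h)), if_neg (fun h => hl (val_mem_upS.1 h))]; rfl

theorem prod_ne {A : Finset (Io i i')} {z : ℂ} (hz : ∀ l : Io i i', b4 q l ≠ z) :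
    ∏ l : Io i i', br (upS A) l (z - b4 q l) ≠ 0 :=
  Finset.prod_ne_zero_iff.2 fun l _ => br_ne_zero (sub_ne_zero.2 (hz l).symm)

theorem Pair.ne_of (hp : Pair q i i' e) {z : ℂ} (hz : z ≠ e) (hz4 : ∀ l : Io i i', b4 q l ≠ z) :
    ∀ l, q l ≠ z := by
  intro l
  rcases lab (i := i) (i' := i') l with rfl | rfl | ⟨l', rfl⟩
  · rw [hp.eq]; exact hz.symm
  · rw [hp.eq']; exact hz.symm
  · exact hz4 l'

theorem Pair.sr (hp : Pair q i i' e) {z : ℂ} (hz : z ≠ e) : SR q z := by
  intro l m hl hm
  rcases lab (i := i) (i' := i') l with rfl | rfl | ⟨l', rfl⟩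
  · exact absurd (hl.symm.trans hp.eq) hz
  · exact absurd (hl.symm.trans hp.eq') hz
  rcases lab (i := i) (i' := i') m with rfl | rfl | ⟨m', rfl⟩
  · exact absurd (hm.symm.trans hp.eq) hz
  · exact absurd (hm.symm.trans hp.eq') hz
  have : l' = m' := hp.inj (hl.trans hm.symm)
  rw [this]

theorem N6.deriv4 (H : N6 q e a F) (hp : Pair q i i' e) {c : Bool} {A : Finset (Io i i')} {z : ℂ}
    (h4 : OK4 q A z) (hc : CC q e c A z) (hz : z ≠ e) (hz4 : ∀ l : Io i i', b4 q l ≠ z) :
    HasDerivAt (F (ty c A)) (f4 q a A z) z := by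
  have h1 := H.deriv (ty c A) z ((ok_ty hp.eq hp.eq').2 ⟨h4, hc⟩) (hp.ne_of hz hz4)
  have h2 : z - e ≠ 0 := sub_ne_zero.2 hz
  have h3 := prod_ne (A := A) hz4
  rw [hp.sq_eq] at h1
  refine h1.congr_deriv ?_
  unfold f4
  field_simp

/-- to the right of the node both sides agree -/
theorem N6.right (H : N6 q e a F) (hp : Pair q i i' e) {A : Finset (Io i i')} {x : ℂ}
    (h4 : OK4 q A x) (hx : e.re < x.re) : F (ty true A) x = F (ty false A) x := by
  have hxe : x ≠ e := fun h => by rw [h] at hx; exact lt_irrefl _ hx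
  have hsr := hp.sr hxe
  have k0 : OK (ty false A) q x := (ok_ty hp.eq hp.eq').2 ⟨h4, CC_of_gt hx _⟩
  have k1 : OK (ty true A) q x := (ok_ty hp.eq hp.eq').2 ⟨h4, CC_of_gt hx _⟩
  have e0 : ty false A = upS A := by simp [ty]
  have e1 : ty true A = insert i (insert i' (upS A)) := by simp [ty]
  have kk : OK (insert i' (upS A)) q x := by
    rw [e0] at k0
    rw [e1] at k1
    have hmem : ∀ l, (q l).re ≠ e.re → (l ∈ insert i' (upS A) ↔ l ∈ upS A) := by
      intro l hl
      rw [Finset.mem_insert]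
      refine ⟨fun h => h.resolve_left fun h' => hl ?_, Or.inr⟩
      rw [h', hp.eq']
    constructor
    · intro l hl m hm h1 h2
      have n1 : (q l).re ≠ e.re := by intro h; rw [h] at h2; exact lt_asymm h2 hx
      have n2 : (q m).re ≠ e.re := by rw [← h1]; exact n1
      exact k0.1 l ((hmem l n1).1 hl) m (fun h => hm ((hmem m n2).2 h)) h1 h2
    · intro l hl h1
      have n1 : (q l).re ≠ e.re := by rw [h1]; exact hx.ne'
      exact ⟨fun h => (k0.2 l hl h1).1 ((hmem l n1).1 h), fun h =>
        (k0.2 l hl h1).2 fun h' => h ((hmem l n1).2 h')⟩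
  rw [e0] at k0
  rw [e1] at k1
  rw [e0, e1]
  have hi1 : i ∉ insert i' (upS A) := by
    rw [Finset.mem_insert, not_or]
    exact ⟨hp.ne, i_notMem_upS⟩
  rw [H.flipR _ x i hsr hi1 kk k1 (by rw [hp.eq]; exact hx.le),
    H.flipR _ x i' hsr i'_notMem_upS k0 kk (by rw [hp.eq']; exact hx.le)]

theorem dom_of_ok4 {A : Finset (Io i i')} {x : ℂ} (h : OK4 q A x)
    (hx : ∀ l : Io i i', b4 q l ≠ x) : Dom A (b4 q) x :=
  ⟨fun l h1 => h.2 l (hx l) h1, fun l hl m hm h1 h2 => h.1 l hl m hm h2 h1⟩

theorem differentiableAt_f4 {A : Finset (Io i i')} {z : ℂ} (h : Dom A (b4 q) z) :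
    DifferentiableAt ℂ (f4 q a A) z := by
  have hz : ∀ l : Io i i', b4 q l ≠ z := fun l => (h.ne l).symm
  have h1 : DifferentiableAt ℂ (fun z => ∏ l : Io i i', br (upS A) l (z - b4 q l)) z := by
    refine DifferentiableAt.fun_finsetProd fun l _ => ?_
    have h2 : z - b4 q l ∈ Sb (upS A) l := by
      rw [mem_Sb_iff]
      intro h0
      have h3 : (b4 q l).re = z.re := by rw [sub_re] at h0; linarith
      obtain ⟨h4, h5⟩ := h.1 l h3
      rw [sub_im]
      exact ⟨fun hl => by linarith [h4 (val_mem_upS.1 hl)], fun hl => by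
        linarith [h5 fun h' => hl (val_mem_upS.2 h')]⟩
    have h3 : DifferentiableAt ℂ (fun z => z - b4 q l) z := by fun_prop
    exact (analyticAt_br h2).differentiableAt.comp z h3
  unfold f4
  exact (differentiableAt_const a).div h1 (prod_ne hz)

/-- a disc without a vertical ray from its centre is preconnected -/
theorem preconn_slit (e : ℂ) {δ : ℝ} (hδ : 0 < δ) {s : ℝ} (hs : s = 1 ∨ s = -1) :
    IsPreconnected {z | z ∈ Metric.ball e δ ∧ (z.re = e.re → 0 < s * (z.im - e.im))} := by
  set D : Set ℂ := {z | z ∈ Metric.ball e δ ∧ (z.re = e.re → 0 < s * (z.im - e.im))}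
  set p : ℂ := e + (s * (δ / 2) : ℝ) * I
  have hs2 : s * s = 1 := by rcases hs with h | h <;> rw [h] <;> norm_num
  have hp : p ∈ D := by
    refine ⟨?_, fun _ => ?_⟩
    · rw [mem_ball_iff_norm]
      have : p - e = (s * (δ / 2) : ℝ) * I := by simp [p]
      rw [this, norm_mul, norm_I, mul_one, Complex.norm_real, Real.norm_eq_abs, abs_mul,
        abs_of_pos (half_pos hδ)]
      have : |s| = 1 := by rcases hs with h | h <;> rw [h] <;> norm_num
      rw [this]; linarith
    · have : p.im - e.im = s * (δ / 2) := by simp [p]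
      rw [this, ← mul_assoc, hs2, one_mul]
      exact half_pos hδ
  have hstar : StarConvex ℝ p D := by
    intro z hz u v hu hv huv
    refine ⟨(convex_ball e δ) hp.1 hz.1 hu hv huv, fun hre => ?_⟩
    have h1 : (u • p + v • z).re = u * e.re + v * z.re := by
      simp [p]
    have h2 : (u • p + v • z).im = u * (e.im + s * (δ / 2)) + v * z.im := by
      simp [p]
      ring
    rw [h1] at hre
    have h3 : s * ((u • p + v • z).im - e.im) = u * (s * s) * (δ / 2) + v * (s * (z.im - e.im)) := by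
      rw [h2]
      have : u = 1 - v := by linarith
      rw [this]; ring
    rw [h3, hs2]
    by_cases hv0 : v = 0
    · have : u = 1 := by linarith
      rw [hv0, this]; linarith
    · have h4 : z.re = e.re := by
        have : u = 1 - v := by linarith
        rw [this] at hre
        have h5 : v * (z.re - e.re) = 0 := by linarith
        rcases mul_eq_zero.1 h5 with h6 | h6
        · exact absurd h6 hv0
        · linarith
      have h5 := hz.2 h4
      have h6 : 0 < v := lt_of_le_of_ne hv (Ne.symm hv0)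
      have h7 := mul_pos h6 h5
      have h8 : 0 ≤ u * 1 * (δ / 2) := by positivity
      linarith
  exact (hstar.isPathConnected hp).isConnected.isPreconnected

theorem isOpen_slit (e : ℂ) (δ : ℝ) (s : ℝ) :
    IsOpen {z | z ∈ Metric.ball e δ ∧ (z.re = e.re → 0 < s * (z.im - e.im))} := by
  have h1 : {z : ℂ | z ∈ Metric.ball e δ ∧ (z.re = e.re → 0 < s * (z.im - e.im))} =
      Metric.ball e δ ∩ ({z | z.re ≠ e.re} ∪ {z | 0 < s * (z.im - e.im)}) := by
    ext z
    simp only [mem_ofPred_eq, mem_inter_iff, mem_union]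
    tauto
  rw [h1]
  exact Metric.isOpen_ball.inter ((isOpen_ne_fun (by fun_prop) (by fun_prop)).union
    (isOpen_lt (by fun_prop) (by fun_prop)))

/-- the side of the pair as a sign -/
def sgn (c : Bool) : ℝ := if c = true then -1 else 1

/-- **at the node**: one primitive `G` and one constant for both sides -/
theorem N6.loc (H : N6 q e a F) (hp : Pair q i i' e) {A : Finset (Io i i')} (h4 : OK4 q A e) :
    ∃ δ > 0, ∃ G : ℂ → ℂ, (∀ z ∈ Metric.ball e δ, HasDerivAt G (f4 q a A z) z) ∧
      (∀ z ∈ Metric.ball e δ, OK4 q A z ∧ ∀ l : Io i i', b4 q l ≠ z) ∧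
      ∀ z ∈ Metric.ball e δ, z ≠ e → ∀ c, CC q e c A z → F (ty c A) z = G z := by
  have hD := dom_of_ok4 h4 hp.off
  obtain ⟨δ, hδ, hball⟩ := Metric.eventually_nhds_iff_ball.1 (eventually_Dom hD)
  have hok : ∀ z ∈ Metric.ball e δ, OK4 q A z ∧ ∀ l : Io i i', b4 q l ≠ z := fun z hz =>
    ⟨(hball z hz).ok4, fun l => ((hball z hz).ne l).symm⟩
  have hdiff : DifferentiableOn ℂ (f4 q a A) (Metric.ball e δ) := fun z hz =>
    (differentiableAt_f4 (hball z hz)).differentiableWithinAt
  obtain ⟨G, hG⟩ := hdiff.isExactOn_ball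
  -- points of the slit disc are admissible
  have hadm : ∀ c z, z ∈ Metric.ball e δ → (z.re = e.re → 0 < sgn c * (z.im - e.im)) →
      z ≠ e ∧ CC q e c A z := by
    intro c z hz hs
    have hne : z ≠ e := by
      rintro rfl
      have := hs rfl
      simp at this
    refine ⟨hne, fun l hl _ => ?_, fun _ hr => ?_⟩
    · have := h4.2 l (hp.off l) hl
      exact ⟨fun _ => this.1, fun _ => this.2⟩
    · have h1 := hs hr.symm
      refine ⟨fun hc => ?_, fun hc => ?_⟩
      · rw [hc] at h1; simp [sgn] at h1; linarith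
      · rw [hc] at h1; simp [sgn] at h1; linarith
  have hconst : ∀ c, ∃ k, ∀ z, z ∈ Metric.ball e δ → (z.re = e.re → 0 < sgn c * (z.im - e.im)) →
      F (ty c A) z - G z = k := by
    intro c
    have hs : sgn c = 1 ∨ sgn c = -1 := by
      unfold sgn; split_ifs
      · exact Or.inr rfl
      · exact Or.inl rfl
    have hd : ∀ z ∈ {z | z ∈ Metric.ball e δ ∧ (z.re = e.re → 0 < sgn c * (z.im - e.im))},
        HasDerivAt (fun z => F (ty c A) z - G z) 0 z := by
      rintro z ⟨hz, hz'⟩
      obtain ⟨h1, h2⟩ := hadm c z hz hz'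
      have h3 := (H.deriv4 hp (hok z hz).1 h2 h1 (hok z hz).2).sub (hG z hz)
      rwa [sub_self] at h3
    obtain ⟨k, hk⟩ := (isOpen_slit e δ (sgn c)).exists_is_const_of_deriv_eq_zero
      (preconn_slit e hδ hs) (fun z hz => (hd z hz).differentiableAt.differentiableWithinAt)
      (fun z hz => (hd z hz).deriv)
    exact ⟨k, fun z h1 h2 => hk z ⟨h1, h2⟩⟩
  obtain ⟨k0, hk0⟩ := hconst false
  obtain ⟨k1, hk1⟩ := hconst true
  -- both constants agree
  set p : ℂ := e + (δ / 2 : ℝ)
  have hpb : p ∈ Metric.ball e δ := by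
    rw [mem_ball_iff_norm]
    simp only [p, add_sub_cancel_left, Complex.norm_real, Real.norm_eq_abs, abs_of_pos (half_pos hδ)]
    linarith
  have hpre : e.re < p.re := by simp [p]; exact hδ
  have hk : k0 = k1 := by
    rw [← hk0 p hpb fun h => absurd h hpre.ne', ← hk1 p hpb fun h => absurd h hpre.ne',
      H.right hp (hok p hpb).1 hpre]
  refine ⟨δ, hδ, fun z => G z + k0, fun z hz => (hG z hz).add_const _, hok, ?_⟩
  intro z hz hne c hc
  have hs : z.re = e.re → 0 < sgn c * (z.im - e.im) := by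
    intro hr
    have := hc.2 hne.symm hr.symm
    cases c
    · have := this.2 rfl
      simp [sgn]; linarith
    · have := this.1 rfl
      simp [sgn]; linarith
  cases c
  · have := hk0 z hz hs
    show F (ty false A) z = G z + k0
    rw [← this]; ring
  · have := hk1 z hz hs
    show F (ty true A) z = G z + k0
    rw [hk, ← this]; ring

end

end Vale.Agent.P273.H379
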