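import Vale.Agent.P273.H379.NodeB

/-! P273 / H379, row E-REG: passing the node from above or from below gives the same value, at every
admissible starting point. -/

namespace Vale.Agent.P273.H379

open Complex Set Filter Topology H857 H595
open scoped ContDiff Real

noncomputable section

variable {i i' : Fin 6} {q : C6} {e a : ℂ} {F : Finset (Fin 6) → ℂ → ℂ}

/-- the values of `F` do not depend on the side, to the left of the node -/
theorem N6.left (H : N6 q e a F) (hp : Pair q i i' e) {A : Finset (Io i i')} {x : ℂ}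
    (h4 : OK4 q A x) (hx : x.re < e.re) (h0 : CC q e false A x) (h1 : CC q e true A x)
    (hr : ∀ j : Io i i', b4 q j = x → j ∉ A) : F (ty true A) x = F (ty false A) x := by
  have hxe : x ≠ e := fun h => by rw [h] at hx; exact lt_irrefl _ hx
  have k0 : OK (ty false A) q x := (ok_ty hp.eq hp.eq').2 ⟨h4, h0⟩
  have k1 : OK (ty true A) q x := (ok_ty hp.eq hp.eq').2 ⟨h4, h1⟩
  obtain ⟨g0, hg0⟩ := H.path _ _ k0
  obtain ⟨g1, hg1⟩ := H.path _ _ k1
  set T : ℝ := (e - x).re with hT
  have hT0 : 0 < T := by rw [hT, sub_re]; linarith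
  -- the heights at the node
  have a0 : (e - x).im < g0 T := by
    have := (hg0.2 i (by rw [hp.eq]; exact hxe.symm) (by rw [hp.eq]; exact hT0.le)).2 (by
      rw [i_mem_ty]; simp)
    rwa [hp.eq] at this
  have a1 : g1 T < (e - x).im := by
    have := (hg1.2 i (by rw [hp.eq]; exact hxe.symm) (by rw [hp.eq]; exact hT0.le)).1 (by
      rw [i_mem_ty])
    rwa [hp.eq] at this
  set s : ℝ := (g0 T - (e - x).im) / (g0 T - g1 T) with hs
  have hden : 0 < g0 T - g1 T := by linarith
  have hs0 : 0 ≤ s := div_nonneg (by linarith) hden.le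
  have hs1 : s ≤ 1 := by rw [hs, div_le_one hden]; linarith
  set g : ℝ → ℝ := fun t => (1 - s) * g0 t + s * g1 t with hg
  have hgT : g T = (e - x).im := by
    have : s * (g0 T - g1 T) = g0 T - (e - x).im := by rw [hs]; field_simp
    have h2 : g T = g0 T - s * (g0 T - g1 T) := by simp only [hg]; ring
    rw [h2, this]; ring
  have hgp : IsPath g := hg0.1.comb hg1.1 (1 - s) s
  -- the path is admissible for the four labels
  have hadm : ∀ l : Io i i', b4 q l ≠ x → 0 ≤ (b4 q l - x).re →
      (l ∈ A → g (b4 q l - x).re < (b4 q l - x).im) ∧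
        (l ∉ A → (b4 q l - x).im < g (b4 q l - x).re) := by
    intro l hl hre
    obtain ⟨u0, u1⟩ := hg0.2 l hl hre
    obtain ⟨v0, v1⟩ := hg1.2 l hl hre
    constructor
    · intro hA
      have w0 := u0 (val_mem_ty.2 hA)
      have w1 := v0 (val_mem_ty.2 hA)
      change g0 (b4 q l - x).re < (b4 q l - x).im at w0
      change g1 (b4 q l - x).re < (b4 q l - x).im at w1
      simp only [hg]
      rcases hs0.eq_or_lt with h | h
      · rw [← h]; linarith
      · nlinarith
    · intro hA
      have w0 := u1 fun h => hA (val_mem_ty.1 h)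
      have w1 := v1 fun h => hA (val_mem_ty.1 h)
      change (b4 q l - x).im < g0 (b4 q l - x).re at w0
      change (b4 q l - x).im < g1 (b4 q l - x).re at w1
      simp only [hg]
      rcases hs0.eq_or_lt with h | h
      · rw [← h]; linarith
      · nlinarith
  set z : ℝ → ℂ := gam x g with hz
  have hzre : ∀ t, (z t).re = x.re + t := fun t => gam_re x g t
  have hzim : ∀ t, (z t).im = x.im + g t := fun t => gam_im x g t
  have hz0 : z 0 = x := gam_zero hgp.zero
  have hzT : z T = e := by
    apply Complex.ext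
    · rw [hzre, hT, sub_re]; ring
    · rw [hzim, hgT, sub_im]; ring
  -- the four labels along the path
  have hpath : ∀ t, 0 ≤ t → OK4 q A (z t) ∧ (0 < t → ∀ l : Io i i', b4 q l ≠ z t) := by
    intro t ht
    have hc : ∀ l : Io i i', b4 q l ≠ x → (b4 q l).re = (z t).re →
        (l ∈ A → (z t).im < (b4 q l).im) ∧ (l ∉ A → (b4 q l).im < (z t).im) := by
      intro l hl hre
      have e1 : (b4 q l - x).re = t := by rw [sub_re, hre, hzre]; ring
      obtain ⟨u0, u1⟩ := hadm l hl (by rw [e1]; exact ht)
      rw [e1, sub_im] at u0 u1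
      rw [hzim]
      exact ⟨fun h => by linarith [u0 h], fun h => by linarith [u1 h]⟩
    refine ⟨⟨fun l hl m hm h1 h2 => h4.1 l hl m hm h1 ?_, fun l hl hre => ?_⟩, fun ht0 l hl => ?_⟩
    · rw [hzre] at h2; linarith
    · by_cases hlx : b4 q l = x
      · have : t = 0 := by rw [hlx, hzre] at hre; linarith
        rw [this, hz0] at hl
        exact absurd hlx hl
      · exact hc l hlx hre
    · have hlx : b4 q l ≠ x := by
        intro h
        have := congrArg Complex.re hl
        rw [h, hzre] at this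
        linarith
      obtain ⟨u0, u1⟩ := hc l hlx (by rw [hl])
      rw [hl] at u0 u1
      by_cases h : l ∈ A
      · exact lt_irrefl _ (u0 h)
      · exact lt_irrefl _ (u1 h)
  have hCC : ∀ c t, 0 ≤ t → t < T → CC q e c A (z t) := by
    intro c t ht htT
    have h1' : (z t).re < e.re := by rw [hzre]; rw [hT, sub_re] at htT; linarith
    refine ⟨fun l hl _ => ⟨fun hc hA => ?_, fun hc hA => ?_⟩, fun _ h => absurd h h1'.ne'⟩
    · exact (h0.1 l hl hx).1 rfl hA
    · exact (h1.1 l hl hx).2 rfl hA
  have hze : ∀ t, t < T → z t ≠ e := by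
    intro t ht h
    have := congrArg Complex.re h
    rw [hzre] at this
    rw [hT, sub_re] at ht
    linarith
  -- the local primitive at the node
  have h4e : OK4 q A e := by rw [← hzT]; exact (hpath T hT0.le).1
  obtain ⟨δ, hδ, G, hG, hok, hFG⟩ := H.loc hp h4e
  have hzc : Continuous z := by
    have h2 : Continuous g := hgp.smooth.continuous
    rw [hz]; unfold gam; fun_prop
  -- the difference is constant
  set D : ℝ → ℂ := fun t => F (ty true A) (z t) - F (ty false A) (z t) with hD
  have hderiv : ∀ t, 0 < t → t < T → HasDerivAt D 0 t := by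
    intro t ht htT
    have h2 : HasDerivAt z (1 + _root_.deriv g t * I) t := by
      have h3 : HasDerivAt g (_root_.deriv g t) t :=
        ((hgp.smooth.differentiable (by simp)) t).hasDerivAt
      have h5 : HasDerivAt (fun t : ℝ => (t : ℂ)) 1 t := by
        simpa using (hasDerivAt_id t).ofReal_comp
      have h6 := (h5.add (h3.ofReal_comp.mul_const I)).const_add x
      exact h6
    obtain ⟨p1, p2⟩ := hpath t ht.le
    have d1 := (H.deriv4 hp p1 (hCC true t ht.le htT) (hze t htT) (p2 ht)).scomp t h2
    have d0 := (H.deriv4 hp p1 (hCC false t ht.le htT) (hze t htT) (p2 ht)).scomp t h2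
    have := d1.sub d0
    rw [sub_self] at this
    exact this
  have hconst : ∀ t, 0 < t → t < T → ∀ t', 0 < t' → t' < T → D t = D t' := by
    intro t ht htT t' ht' htT'
    exact (isOpen_Ioo (a := (0:ℝ)) (b := T)).is_const_of_deriv_eq_zero isPreconnected_Ioo
      (fun u hu => (hderiv u hu.1 hu.2).differentiableAt.differentiableWithinAt)
      (fun u hu => (hderiv u hu.1 hu.2).deriv) ⟨ht, htT⟩ ⟨ht', htT'⟩
  -- it vanishes near the node
  obtain ⟨t₁, ht₁, ht₁T, hball⟩ : ∃ t, 0 < t ∧ t < T ∧ z t ∈ Metric.ball e δ := by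
    have h2 : ∀ᶠ t in 𝓝[<] T, z t ∈ Metric.ball e δ :=
      (hzc.continuousAt.eventually (by
        rw [hzT]; exact Metric.isOpen_ball.mem_nhds (Metric.mem_ball_self hδ))).filter_mono
        nhdsWithin_le_nhds
    have h3 : ∀ᶠ t in 𝓝[<] T, 0 < t := (lt_mem_nhds hT0).filter_mono nhdsWithin_le_nhds
    obtain ⟨t, k1, k2, k3⟩ := (h3.and (h2.and self_mem_nhdsWithin)).exists
    exact ⟨t, k1, k3, k2⟩
  have hzero : ∀ t, 0 < t → t < T → D t = 0 := by
    intro t ht htT
    rw [hconst t ht htT t₁ ht₁ ht₁T]
    have e1 := hFG _ hball (hze _ ht₁T) true (hCC true t₁ ht₁.le ht₁T)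
    have e0 := hFG _ hball (hze _ ht₁T) false (hCC false t₁ ht₁.le ht₁T)
    simp only [hD, e1, e0, sub_self]
  -- continuity at the starting point
  have hlim : ∀ c, CC q e c A x → Tendsto (fun t => F (ty c A) (z t)) (𝓝[>] 0)
      (𝓝 (F (ty c A) x)) := by
    intro c hc
    have hz0' : Tendsto z (𝓝[>] 0) (𝓝 x) := by
      have := hzc.tendsto 0
      rw [hz0] at this
      exact this.mono_left nhdsWithin_le_nhds
    by_cases hroot : ∃ j : Io i i', b4 q j = x
    · obtain ⟨j, hj⟩ := hroot
      have hj' : q j = x := hj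
      have hne : ∀ l, l ≠ (j : Fin 6) → q l ≠ q j := by
        intro l hl
        rcases lab (i := i) (i' := i') l with rfl | rfl | ⟨l', rfl⟩
        · rw [hp.eq]; exact (hp.off j).symm
        · rw [hp.eq']; exact (hp.off j).symm
        · exact fun h => hl (congrArg Subtype.val (hp.inj h))
      have h2 := H.root (ty c A) j (by rw [hj']; exact (ok_ty hp.eq hp.eq').2 ⟨h4, hc⟩)
        (fun h => hr j hj (val_mem_ty.1 h)) hne
      rw [hj'] at h2
      refine h2.comp (tendsto_nhdsWithin_iff.2 ⟨hz0', ?_⟩)
      filter_upwards [self_mem_nhdsWithin] with t ht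
      refine Or.inl ?_
      rw [hzre]
      have : (0 : ℝ) < t := ht
      linarith
    · push Not at hroot
      have h2 := (H.deriv4 hp h4 hc hxe hroot).continuousAt
      exact h2.tendsto.comp hz0'
  have h2 : Tendsto D (𝓝[>] 0) (𝓝 (F (ty true A) x - F (ty false A) x)) :=
    (hlim true h1).sub (hlim false h0)
  have h3 : Tendsto D (𝓝[>] 0) (𝓝 0) := by
    refine tendsto_const_nhds.congr' ?_
    have : ∀ᶠ t : ℝ in 𝓝[>] 0, t < T := (gt_mem_nhds hT0).filter_mono nhdsWithin_le_nhds
    filter_upwards [this, self_mem_nhdsWithin] with t k1 k2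
    exact (hzero t k2 k1).symm
  exact sub_eq_zero.1 (tendsto_nhds_unique h2 h3)

/-- **independence of the side** -/
theorem N6.side_eq (H : N6 q e a F) (hp : Pair q i i' e) {A : Finset (Io i i')} {x : ℂ}
    (h4 : OK4 q A x) (hx : x ≠ e) {c c' : Bool} (h0 : CC q e c A x) (h1 : CC q e c' A x)
    (hr : ∀ j : Io i i', b4 q j = x → j ∉ A) : F (ty c A) x = F (ty c' A) x := by
  have key : CC q e false A x → CC q e true A x → F (ty true A) x = F (ty false A) x := by
    intro h0 h1
    rcases lt_trichotomy x.re e.re with hlt | heq | hgt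
    · exact H.left hp h4 hlt h0 h1 hr
    · exact absurd ((h0.2 hx.symm heq.symm).2 rfl) (lt_asymm ((h1.2 hx.symm heq.symm).1 rfl))
    · exact H.right hp h4 hgt
  cases c <;> cases c'
  · rfl
  · exact (key h0 h1).symm
  · exact key h1 h0
  · rfl

end

end Vale.Agent.P273.H379
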