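import Vale.Agent.P273.H379.NodeC

/-! P273 / H379, row E-REG: the four roots outside the pair, the primitives continued through the node,
and the non-degeneracy. -/

namespace Vale.Agent.P273.H379

open Complex Set Filter Topology H857 H595
open scoped ContDiff Real

noncomputable section

variable {i i' : Fin 6} {q : C6} {e a : ℂ} {F : Finset (Fin 6) → ℂ → ℂ}

theorem Dom.ok {B : Finset (Fin 6)} {x : ℂ} (h : Dom B q x) : OK B q x :=
  ⟨fun l hl m hm h1 h2 => h.2 l hl m hm h2 h1, fun l _ h1 => h.1 l h1⟩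

theorem dom_of_ok {B : Finset (Fin 6)} {x : ℂ} (h : OK B q x) (hx : ∀ l, q l ≠ x) : Dom B q x :=
  ⟨fun l h1 => h.2 l (hx l) h1, fun l hl m hm h1 h2 => h.1 l hl m hm h2 h1⟩

theorem rdom_of_ok {B : Finset (Fin 6)} {j : Fin 6} (h : OK B q (q j)) (hj : j ∉ B)
    (hs : ∀ l, l ≠ j → q l ≠ q j) : RDom B q j :=
  ⟨hj, fun l hl h1 => h.2 l (hs l hl) h1, fun l hl m hm h1 h2 => h.1 l hl m hm h2 h1⟩

/-- the side of the node is an open condition -/
theorem Pair.eventually_CC (hp : Pair q i i' e) {c : Bool} {A : Finset (Io i i')} {x : ℂ}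
    (h4 : OK4 q A x) (hc : CC q e c A x) (hx : x ≠ e) (hx4 : ∀ l : Io i i', b4 q l ≠ x) :
    ∀ᶠ z in 𝓝 x, CC q e c A z := by
  have h1 : OK (ty c A) q x := (ok_ty hp.eq hp.eq').2 ⟨h4, hc⟩
  filter_upwards [eventually_Dom (dom_of_ok h1 (hp.ne_of hx hx4))] with z hz
  exact ((ok_ty hp.eq hp.eq').1 hz.ok).2

/-- the other roots are simple -/
theorem Pair.simple (hp : Pair q i i' e) (j : Io i i') : ∀ l, l ≠ (j : Fin 6) → q l ≠ q j := by
  intro l hl
  rcases lab (i := i) (i' := i') l with rfl | rfl | ⟨l', rfl⟩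
  · rw [hp.eq]; exact (hp.off j).symm
  · rw [hp.eq']; exact (hp.off j).symm
  · exact fun h => hl (congrArg Subtype.val (hp.inj h))

/-- a flip to the left gives an admissible set at the root -/
theorem ok_root_of_flip {B : Finset (Fin 6)} {m : Fin 6} {x : ℂ} (hm : m ∉ B) (h : OK B q x)
    (h' : OK (insert m B) q x) (hx : x.re < (q m).re) : OK B q (q m) := by
  refine ⟨fun l hl l' hl' h1 h2 => h.1 l hl l' hl' h1 (hx.trans h2), fun l hl h1 => ⟨fun hB => ?_,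
    fun hB => ?_⟩⟩
  · exact h.1 l hB m hm h1 (by rw [h1]; exact hx)
  · refine h'.1 m (Finset.mem_insert_self m B) l (fun h3 => ?_) h1.symm hx
    rcases Finset.mem_insert.1 h3 with h3 | h3
    · exact hl (by rw [h3])
    · exact hB h3

open Classical in
/-- one admissible side -/
def cs (q : C6) (e : ℂ) (A : Finset (Io i i')) (x : ℂ) : Bool :=
  if h : ∃ c, CC q e c A x then h.choose else false

theorem cs_spec {A : Finset (Io i i')} {x : ℂ} (h : ∃ c, CC q e c A x) :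
    CC q e (cs q e A x) A x := by
  unfold cs
  rw [dif_pos h]
  exact h.choose_spec

open Classical in
/-- the primitive for four roots, continued through the node -/
def F4 (q : C6) (e : ℂ) (F : Finset (Fin 6) → ℂ → ℂ) (A : Finset (Io i i')) (x : ℂ) : ℂ :=
  if x = e then limUnder (𝓝[≠] e) (fun z => F (ty (cs q e A z) A) z) else F (ty (cs q e A x) A) x

theorem N6.F4_eq (H : N6 q e a F) (hp : Pair q i i' e) {A : Finset (Io i i')} {x : ℂ}
    (h4 : OK4 q A x) (hx : x ≠ e) {c : Bool} (hc : CC q e c A x)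
    (hr : ∀ j : Io i i', b4 q j = x → j ∉ A) : F4 q e F A x = F (ty c A) x := by
  unfold F4
  rw [if_neg hx]
  exact H.side_eq hp h4 hx (cs_spec ⟨c, hc⟩) hc hr

theorem noroot {A : Finset (Io i i')} {x : ℂ} (h : ∀ l : Io i i', b4 q l ≠ x) :
    ∀ j : Io i i', b4 q j = x → j ∉ A := fun j hj => absurd hj (h j)

theorem N6.F4_loc (H : N6 q e a F) (hp : Pair q i i' e) {A : Finset (Io i i')}
    (h4 : OK4 q A e) : HasDerivAt (F4 q e F A) (f4 q a A e) e := by
  obtain ⟨δ, hδ, G, hG, hok, hF⟩ := H.loc hp h4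
  have hball : Metric.ball e δ ∈ 𝓝 e := Metric.isOpen_ball.mem_nhds (Metric.mem_ball_self hδ)
  have h1 : ∀ᶠ z in 𝓝[≠] e, F (ty (cs q e A z) A) z = G z := by
    filter_upwards [mem_nhdsWithin_of_mem_nhds hball, self_mem_nhdsWithin] with z hz hz'
    have hze : z ≠ e := hz'
    exact hF z hz hze _ (cs_spec (exists_CC' hze hp.off (hok z hz).1))
  have h2 : Tendsto (fun z => F (ty (cs q e A z) A) z) (𝓝[≠] e) (𝓝 (G e)) := by
    have := (hG e (Metric.mem_ball_self hδ)).continuousAt.tendsto.mono_left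
      (nhdsWithin_le_nhds (s := {e}ᶜ))
    exact this.congr' (h1.mono fun z hz => hz.symm)
  have h3 : F4 q e F A e = G e := by
    unfold F4
    rw [if_pos rfl]
    exact h2.limUnder_eq
  refine (hG e (Metric.mem_ball_self hδ)).congr_of_eventuallyEq ?_
  filter_upwards [hball] with z hz
  by_cases hze : z = e
  · rw [hze, h3]
  · have h5 := cs_spec (exists_CC' (q := q) (A := A) hze hp.off (hok z hz).1)
    unfold F4
    rw [if_neg hze]
    exact hF z hz hze _ h5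

theorem N6.F4_deriv (H : N6 q e a F) (hp : Pair q i i' e) {A : Finset (Io i i')} {x : ℂ}
    (hD : Dom A (b4 q) x) : HasDerivAt (F4 q e F A) (f4 q a A x) x := by
  by_cases hx : x = e
  · rw [hx] at hD ⊢
    exact H.F4_loc hp hD.ok4
  have hx4 : ∀ l : Io i i', b4 q l ≠ x := fun l => (hD.ne l).symm
  obtain ⟨c, hc⟩ := exists_CC' hx hp.off hD.ok4
  refine (H.deriv4 hp hD.ok4 hc hx hx4).congr_of_eventuallyEq ?_
  filter_upwards [hp.eventually_CC hD.ok4 hc hx hx4, eventually_Dom hD, isOpen_ne.mem_nhds hx]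
    with z h1 h2 h3
  exact H.F4_eq hp h2.ok4 h3 h1 (noroot fun l => (h2.ne l).symm)

/-- the weight of four roots -/
def wt4 (q : C6) (a : ℂ) (i i' : Fin 6) (x : ℂ) : ℝ :=
  ‖a‖ / ∏ l : Io i i', Real.sqrt ‖x - b4 q l‖

theorem norm_f4 (A : Finset (Io i i')) (x : ℂ) : ‖f4 q a A x‖ = wt4 q a i i' x := by
  unfold f4 wt4
  rw [norm_div, norm_prod]
  congr 1
  exact Finset.prod_congr rfl fun l _ => H857.norm_br _ _ _

/-- equality at the node from equality around it -/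
theorem eq_at {f g : ℂ → ℂ} {x : ℂ} (hf : ContinuousAt f x) (hg : ContinuousAt g x)
    (h : ∀ᶠ z in 𝓝[≠] x, f z = g z) : f x = g x := by
  have h1 := hf.tendsto.mono_left (nhdsWithin_le_nhds (s := {x}ᶜ))
  have h2 := hg.tendsto.mono_left (nhdsWithin_le_nhds (s := {x}ᶜ))
  exact tendsto_nhds_unique h1 (h2.congr' (h.mono fun z hz => hz.symm))

theorem N6.F4_flipR (H : N6 q e a F) (hp : Pair q i i' e) {A : Finset (Io i i')} {m : Io i i'}
    {x : ℂ} (hm : m ∉ A) (hD : Dom A (b4 q) x) (hD' : Dom (insert m A) (b4 q) x)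
    (hx : (b4 q m).re < x.re) : F4 q e F (insert m A) x = F4 q e F A x := by
  have gen : ∀ x, x ≠ e → Dom A (b4 q) x → Dom (insert m A) (b4 q) x → (b4 q m).re < x.re →
      F4 q e F (insert m A) x = F4 q e F A x := by
    intro x hxe hD hD' hx
    obtain ⟨c, h1, h2⟩ := exists_CC hxe hp.off hD.ok4 hD'.ok4
    have hx4 : ∀ l : Io i i', b4 q l ≠ x := fun l => (hD.ne l).symm
    rw [H.F4_eq hp hD.ok4 hxe h1 (noroot hx4), H.F4_eq hp hD'.ok4 hxe h2 (noroot hx4), ty_insert]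
    have k1 : OK (ty c A) q x := (ok_ty hp.eq hp.eq').2 ⟨hD.ok4, h1⟩
    have k2 : OK (ty c (insert m A)) q x := (ok_ty hp.eq hp.eq').2 ⟨hD'.ok4, h2⟩
    rw [ty_insert] at k2
    exact H.flipR _ x m (hp.sr hxe) (fun h => hm (val_mem_ty.1 h)) k1 k2 hx.le
  by_cases hxe : x = e
  · refine eq_at (H.F4_deriv hp hD').continuousAt (H.F4_deriv hp hD).continuousAt ?_
    have h3 : ∀ᶠ z : ℂ in 𝓝 x, (b4 q m).re < z.re :=
      continuous_re.continuousAt.eventually (lt_mem_nhds hx)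
    filter_upwards [nhdsWithin_le_nhds (eventually_Dom hD), nhdsWithin_le_nhds (eventually_Dom hD'),
      nhdsWithin_le_nhds h3, self_mem_nhdsWithin] with z k1 k2 k3 k4
    exact gen z (by rw [← hxe]; exact k4) k1 k2 k3
  · exact gen x hxe hD hD' hx

theorem N6.F4_flipL (H : N6 q e a F) (hp : Pair q i i' e) {A : Finset (Io i i')} {m : Io i i'}
    {x : ℂ} (hm : m ∉ A) (hD : Dom A (b4 q) x) (hD' : Dom (insert m A) (b4 q) x)
    (hx : x.re < (b4 q m).re) :
    F4 q e F (insert m A) x + F4 q e F A x = 2 * F4 q e F A (b4 q m) := by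
  have gen : ∀ x, x ≠ e → Dom A (b4 q) x → Dom (insert m A) (b4 q) x → x.re < (b4 q m).re →
      F4 q e F (insert m A) x + F4 q e F A x = 2 * F4 q e F A (b4 q m) := by
    intro x hxe hD hD' hx
    obtain ⟨c, h1, h2⟩ := exists_CC hxe hp.off hD.ok4 hD'.ok4
    have hx4 : ∀ l : Io i i', b4 q l ≠ x := fun l => (hD.ne l).symm
    rw [H.F4_eq hp hD.ok4 hxe h1 (noroot hx4), H.F4_eq hp hD'.ok4 hxe h2 (noroot hx4), ty_insert]
    have k1 : OK (ty c A) q x := (ok_ty hp.eq hp.eq').2 ⟨hD.ok4, h1⟩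
    have k2 : OK (ty c (insert m A)) q x := (ok_ty hp.eq hp.eq').2 ⟨hD'.ok4, h2⟩
    rw [ty_insert] at k2
    have hm' : (m : Fin 6) ∉ ty c A := fun h => hm (val_mem_ty.1 h)
    have hr := (ok_ty hp.eq hp.eq').1 (ok_root_of_flip hm' k1 k2 hx)
    rw [H.flipL _ x m (hp.sr hxe) hm' k1 k2 hx]
    rw [H.F4_eq hp (x := b4 q m) hr.1 (hp.off m) hr.2 (fun j hj => by rw [hp.inj hj]; exact hm)]
    rfl
  by_cases hxe : x = e
  · refine eq_at (f := fun x => F4 q e F (insert m A) x + F4 q e F A x)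
      (g := fun _ => 2 * F4 q e F A (b4 q m))
      ((H.F4_deriv hp hD').continuousAt.add (H.F4_deriv hp hD).continuousAt)
      continuousAt_const ?_
    have h3 : ∀ᶠ z : ℂ in 𝓝 x, z.re < (b4 q m).re :=
      continuous_re.continuousAt.eventually (gt_mem_nhds hx)
    filter_upwards [nhdsWithin_le_nhds (eventually_Dom hD), nhdsWithin_le_nhds (eventually_Dom hD'),
      nhdsWithin_le_nhds h3, self_mem_nhdsWithin] with z k1 k2 k3 k4
    exact gen z (by rw [← hxe]; exact k4) k1 k2 k3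
  · exact gen x hxe hD hD' hx

theorem N6.F4_root (H : N6 q e a F) (hp : Pair q i i' e) {A : Finset (Io i i')} {j : Io i i'}
    (h : RDom A (b4 q) j) :
    Tendsto (F4 q e F A) (𝓝[side (b4 q j)] (b4 q j)) (𝓝 (F4 q e F A (b4 q j))) := by
  have hr : ∀ l : Io i i', b4 q l = b4 q j → l ∉ A := fun l hl => by rw [hp.inj hl]; exact h.1
  obtain ⟨c, hc⟩ := exists_CC' (hp.off j) hp.off h.ok4
  have k1 : OK (ty c A) q (q j) := (ok_ty hp.eq hp.eq').2 ⟨h.ok4, hc⟩
  have hj : (j : Fin 6) ∉ ty c A := fun h' => h.1 (val_mem_ty.1 h')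
  have h1 := H.root (ty c A) j k1 hj (hp.simple j)
  rw [H.F4_eq hp h.ok4 (hp.off j) hc hr]
  refine h1.congr' ?_
  have k2 := eventually_Dom_root (rdom_of_ok k1 hj (hp.simple j))
  have k3 : ∀ᶠ z in 𝓝[side (q j)] (q j), z ≠ e :=
    nhdsWithin_le_nhds (isOpen_ne.mem_nhds (hp.off j))
  filter_upwards [k2, k3] with z h2 h3
  have h4 := (ok_ty hp.eq hp.eq').1 h2.ok
  exact (H.F4_eq hp h4.1 h3 h4.2 (noroot fun l hl => h2.ne l hl.symm)).symm

theorem N6.gpc (H : N6 q e a F) (hp : Pair q i i' e) :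
    GPc (b4 q : Io i i' → ℂ) (wt4 q a i i') (F4 q e F) (fun A j => F4 q e F A (b4 q j)) where
  deriv A x hD := ⟨f4 q a A x, norm_f4 A x, H.F4_deriv hp hD⟩
  flipR _ _ _ hm hD hD' hx := H.F4_flipR hp hm hD hD' hx
  flipL _ _ _ hm hD hD' hx := H.F4_flipL hp hm hD hD' hx
  root _ _ h := H.F4_root hp h

theorem card_Io (h : i ≠ i') : Fintype.card (Io i i') = 4 := by
  revert i i'
  decide

theorem dec_wt4 (hp : i ≠ i') : Dec (wt4 q a i i') := by
  obtain ⟨R, hR⟩ : ∃ R : ℝ, ∀ l : Io i i', ‖b4 q l‖ ≤ R := by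
    obtain ⟨R, hR⟩ := (Set.finite_range fun l : Io i i' => ‖b4 q l‖).bddAbove
    exact ⟨R, fun l => hR ⟨l, rfl⟩⟩
  refine ⟨4 * ‖a‖, 2 * |R| + 1, by positivity, fun x hx => ?_⟩
  have hx0 : 0 < ‖x‖ := by
    have := abs_nonneg R
    linarith
  have h1 : ∀ l : Io i i', ‖x‖ / 2 ≤ ‖x - b4 q l‖ := by
    intro l
    have h2 := norm_sub_norm_le x (b4 q l)
    have h3 := (hR l).trans (le_abs_self R)
    linarith
  have h2 : ∏ _l : Io i i', Real.sqrt (‖x‖ / 2) ≤ ∏ l : Io i i', Real.sqrt ‖x - b4 q l‖ :=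
    Finset.prod_le_prod (fun l _ => Real.sqrt_nonneg _) fun l _ => Real.sqrt_le_sqrt (h1 l)
  rw [Finset.prod_const, Finset.card_univ, card_Io hp] at h2
  have h3 : Real.sqrt (‖x‖ / 2) ^ 4 = (‖x‖ / 2) ^ 2 := by
    have h4 := Real.sq_sqrt (by positivity : (0:ℝ) ≤ ‖x‖ / 2)
    calc Real.sqrt (‖x‖ / 2) ^ 4 = (Real.sqrt (‖x‖ / 2) ^ 2) ^ 2 := by ring
      _ = _ := by rw [h4]
  rw [h3] at h2
  unfold wt4
  calc ‖a‖ / ∏ l : Io i i', Real.sqrt ‖x - b4 q l‖ ≤ ‖a‖ / (‖x‖ / 2) ^ 2 :=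
        div_le_div_of_nonneg_left (norm_nonneg _) (by positivity) h2
    _ = 4 * ‖a‖ / ‖x‖ ^ 2 := by
        field_simp
        ring

/-- **non-degeneracy with a double root**: `A₀ j` the set of labels before `j` -/
theorem N6.nondeg (H : N6 q e a F) (hp : Pair q i i' e) {A₀ : Io i i' → Finset (Io i i')}
    (hA₀ : ∀ j, RDom (A₀ j) (b4 q) j) {c : Io i i' → Bool} (hc : ∀ j, CC q e (c j) (A₀ j) (b4 q j))
    (h0 : ∀ j, (F (ty (c j) (A₀ j)) (b4 q j)).re = 0) : a = 0 := by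
  have hne : Nonempty (Io i i') := by
    rw [← Fintype.card_pos_iff, card_Io hp.ne]; norm_num
  have h1 : ∀ j : Io i i', F4 q e F (A₀ j) (b4 q j) = F (ty (c j) (A₀ j)) (b4 q j) := fun j =>
    H.F4_eq hp (hA₀ j).ok4 (hp.off j) (hc j) fun l hl => by rw [hp.inj hl]; exact (hA₀ j).1
  obtain ⟨x, hx⟩ : ∃ x : ℂ, ∀ j : Io i i', x ≠ b4 q j := by
    obtain ⟨x, hx⟩ := (Set.finite_range (b4 q : Io i i' → ℂ)).infinite_compl.nonempty
    exact ⟨x, fun j hj => hx ⟨j, hj.symm⟩⟩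
  have h2 := (H.gpc hp).nondeg (dec_wt4 hp.ne) hp.inj hA₀ (fun j => by rw [h1]; exact h0 j) hx
  have h3 : 0 < ∏ l : Io i i', Real.sqrt ‖x - b4 q l‖ :=
    Finset.prod_pos fun l _ => Real.sqrt_pos.2 (norm_pos_iff.2 (sub_ne_zero.2 (hx l)))
  unfold wt4 at h2
  rcases div_eq_zero_iff.1 h2 with h4 | h4
  · exact norm_eq_zero.1 h4
  · exact absurd h4 h3.ne'

end

end Vale.Agent.P273.H379
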